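import Vale.Agent.P371.KernelPD
import Mathlib.Analysis.SpecialFunctions.Trigonometric.Sinc
import Mathlib.Analysis.Calculus.Deriv.MeanValue

/-! # The pointwise trace inequality -/

namespace Vale.Agent.P371

open Filter Topology Matrix
open scoped ComplexOrder

noncomputable section

variable {ι : Type} [Fintype ι]

theorem sum3_cycle {β : Type*} [AddCommMonoid β] (f : ι → ι → ι → β) :
    ∑ i, ∑ j, ∑ k, f i j k = ∑ i, ∑ j, ∑ k, f k i j := by
  conv_rhs => arg 2; ext i; rw [Finset.sum_comm]
  conv_rhs => rw [Finset.sum_comm]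

theorem sum3_swap {β : Type*} [AddCommMonoid β] (f : ι → ι → ι → β) :
    ∑ i, ∑ j, ∑ k, f i j k = ∑ i, ∑ j, ∑ k, f j i k :=
  Finset.sum_comm

/-- The cubic invariant. -/
def tri (P : Matrix ι ι ℂ) (i j k : ι) : ℝ := (P i j * P j k * P k i).re

theorem herm_entry {P : Matrix ι ι ℂ} (hP : P.IsHermitian) (i j : ι) :
    star (P i j) = P j i := by
  rw [← conjTranspose_apply, hP.eq]

theorem tri_cycle (P : Matrix ι ι ℂ) (i j k : ι) : tri P k i j = tri P i j k := by
  unfold tri; ring_nf

theorem tri_swap {P : Matrix ι ι ℂ} (hP : P.IsHermitian) (i j k : ι) :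
    tri P j i k = tri P i j k := by
  unfold tri
  rw [← Complex.conj_re (P i j * P j k * P k i), ← Complex.star_def, star_mul, star_mul,
    herm_entry hP, herm_entry hP, herm_entry hP]
  ring_nf

/-- Differences of angles. -/
def dif (a : ι → ℝ) (i j : ι) : ℝ := a i - a j

/-- Sines of sums of angles. -/
def sg (a : ι → ℝ) (i j : ι) : ℝ := Real.sin (a i + a j)

theorem sg_symm (a : ι → ℝ) (i j : ι) : sg a i j = sg a j i := by
  unfold sg; rw [add_comm]

theorem sg_pos {a : ι → ℝ} (ha : ∀ i, 0 < a i ∧ a i < Real.pi / 2) (i j : ι) : 0 < sg a i j :=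
  Real.sin_pos_of_pos_of_lt_pi (by linarith [(ha i).1, (ha j).1]) (by linarith [(ha i).2, (ha j).2])

/-- The weighted cubic invariant. -/
def triW (P : Matrix ι ι ℂ) (a : ι → ℝ) (i j k : ι) : ℝ :=
  tri P i j k / (sg a i j * sg a j k * sg a k i)

theorem gker_symm (r x y : ℝ) : gker r x y = gker r y x := by
  unfold gker
  rw [add_comm x y, show r * (x - y) = -(r * (y - x)) by ring, Real.cos_neg]

theorem J_nonneg {P : Matrix ι ι ℂ} (hP : P.PosSemidef) {a : ι → ℝ}
    (ha : ∀ i, 0 < a i ∧ a i < Real.pi / 2) {r : ℝ} (hr0 : 0 ≤ r) (hr1 : r < 1) :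
    0 ≤ ∑ i, ∑ j, ∑ k, triW P a i j k * (dif a i j ^ 2 * gker r (a i) (a j)) := by
  have hW1 : ∀ i j k, triW P a k i j = triW P a i j k := by
    intro i j k; unfold triW; rw [tri_cycle]; ring
  have hW2 : ∀ i j k, triW P a j i k = triW P a i j k := by
    intro i j k; unfold triW
    rw [tri_swap hP.isHermitian, sg_symm a j i, sg_symm a i k, sg_symm a k j]
    ring
  have hd : ∀ i j, dif a j i = -dif a i j := fun i j => by unfold dif; ring
  set A := ∑ i, ∑ j, ∑ k, triW P a i j k * (gker r (a i) (a j) * dif a i j * dif a i k) with hA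
  have h1 : ∑ i, ∑ j, ∑ k, triW P a i j k * (gker r (a i) (a j) * dif a i j * dif a j k) = -A := by
    rw [sum3_swap, hA]
    simp only [← Finset.sum_neg_distrib]
    refine Finset.sum_congr rfl fun i _ => Finset.sum_congr rfl fun j _ =>
      Finset.sum_congr rfl fun k _ => ?_
    rw [hW2, gker_symm r (a j), hd i j]
    ring
  have h2 : ∑ i, ∑ j, ∑ k, triW P a i j k * (dif a i j ^ 2 * gker r (a i) (a j)) = A - -A := by
    rw [← h1, hA, ← Finset.sum_sub_distrib]
    refine Finset.sum_congr rfl fun i _ => ?_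
    rw [← Finset.sum_sub_distrib]
    refine Finset.sum_congr rfl fun j _ => ?_
    rw [← Finset.sum_sub_distrib]
    refine Finset.sum_congr rfl fun k _ => ?_
    unfold dif; ring
  have h3 : A = ∑ i, ∑ j, ∑ k, triW P a i j k * (dif a i k * dif a j k * gker r (a i) (a k)) := by
    rw [hA, sum3_cycle]
    refine Finset.sum_congr rfl fun i _ => Finset.sum_congr rfl fun j _ =>
      Finset.sum_congr rfl fun k _ => ?_
    rw [hW1, gker_symm r (a k), hd i k, hd j k]
    ring
  have h4 : A = ∑ i, ∑ j, ∑ k, triW P a i j k * (dif a i k * dif a j k * gker r (a j) (a k)) := by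
    rw [h3, sum3_swap]
    refine Finset.sum_congr rfl fun i _ => Finset.sum_congr rfl fun j _ =>
      Finset.sum_congr rfl fun k _ => ?_
    rw [hW2]; ring
  have key : ∀ k, 0 ≤ ∑ i, ∑ j, triW P a i j k *
      (dif a i k * dif a j k * (gker r (a i) (a k) + gker r (a j) (a k))) := by
    intro k
    have hK := PK.key ha hr0 hr1 (ha k).1.le (ha k).2.le
    have hQ := qf_nonneg (Matrix.PosSemidef.hadamard hP hK)
      (fun j => ((dif a j k / sg a j k : ℝ) : ℂ) * P j k)
    refine hQ.trans (le_of_eq ?_)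
    unfold qf
    simp only [Complex.re_sum, Matrix.hadamard_apply, Matrix.of_apply]
    refine Finset.sum_congr rfl fun i _ => Finset.sum_congr rfl fun j _ => ?_
    rw [star_mul, herm_entry hP.isHermitian, Complex.star_def, Complex.conj_ofReal]
    have e : P k i * ((dif a i k / sg a i k : ℝ) : ℂ) *
        (P i j * (((gker r (a i) (a k) + gker r (a j) (a k)) / Real.sin (a i + a j) : ℝ) : ℂ)) *
        (((dif a j k / sg a j k : ℝ) : ℂ) * P j k)
        = ((dif a i k / sg a i k * ((gker r (a i) (a k) + gker r (a j) (a k)) / sg a i j)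
            * (dif a j k / sg a j k) : ℝ) : ℂ) * (P i j * P j k * P k i) := by
      unfold sg; push_cast; ring
    rw [e, Complex.re_ofReal_mul, triW, sg_symm a k i]
    unfold tri
    ring
  rw [h2, sub_neg_eq_add]
  conv_rhs => arg 1; rw [h3]
  conv_rhs => arg 2; rw [h4]
  simp only [← Finset.sum_add_distrib, ← mul_add]
  rw [Finset.sum_congr rfl fun i (_ : i ∈ Finset.univ) => Finset.sum_comm, Finset.sum_comm]
  exact Finset.sum_nonneg fun k _ => key k

/-- `sin (s d) / d`, continued by `s` at `d = 0`. -/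
def sincScaled (d s : ℝ) : ℝ := if d = 0 then s else Real.sin (s * d) / d

theorem hasDerivAt_sincScaled (d s : ℝ) :
    HasDerivAt (sincScaled d) (Real.cos (s * d)) s := by
  unfold sincScaled
  by_cases h : d = 0
  · subst h
    simpa using hasDerivAt_id' s
  · simp only [h, if_false]
    have h1 := (((hasDerivAt_id' s).mul_const d).sin).div_const d
    convert h1 using 1
    all_goals first | rfl | (field_simp)

theorem sinc_minus_cos_nonneg {P : Matrix ι ι ℂ} (hP : P.PosSemidef) {a : ι → ℝ}
    (ha : ∀ i, 0 < a i ∧ a i < Real.pi / 2) :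
    0 ≤ ∑ i, ∑ j, ∑ k, tri P i j k *
      ((Real.sinc (dif a i j) - Real.cos (dif a i j)) / (sg a i k * sg a j k)) := by
  set c : ι → ι → ι → ℝ := fun i j k => triW P a i j k * sg a i j with hc
  set W : ℝ → ℝ := fun s => ∑ i, ∑ j, ∑ k, c i j k * Real.cos (s * dif a i j) with hW
  set W1 : ℝ → ℝ := fun s => ∑ i, ∑ j, ∑ k, c i j k * (-Real.sin (s * dif a i j) * dif a i j)
    with hW1
  set S : ℝ → ℝ := fun s => ∑ i, ∑ j, ∑ k, c i j k * sincScaled (dif a i j) s with hS
  have dS : ∀ s, HasDerivAt S (W s) s := fun s =>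
    HasDerivAt.fun_sum fun i _ => HasDerivAt.fun_sum fun j _ => HasDerivAt.fun_sum fun k _ =>
      (hasDerivAt_sincScaled _ s).const_mul _
  have dW : ∀ s, HasDerivAt W (W1 s) s := fun s =>
    HasDerivAt.fun_sum fun i _ => HasDerivAt.fun_sum fun j _ => HasDerivAt.fun_sum fun k _ => by
      have := (((hasDerivAt_id' s).mul_const (dif a i j)).cos).const_mul (c i j k)
      simpa using this
  have dW1 : ∀ s, HasDerivAt W1
      (-∑ i, ∑ j, ∑ k, triW P a i j k * (dif a i j ^ 2 * gker s (a i) (a j))) s := by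
    intro s
    simp only [← Finset.sum_neg_distrib]
    refine HasDerivAt.fun_sum fun i _ => HasDerivAt.fun_sum fun j _ =>
      HasDerivAt.fun_sum fun k _ => ?_
    have := (((((hasDerivAt_id' s).mul_const (dif a i j)).sin).neg).mul_const (dif a i j)).const_mul
      (c i j k)
    convert this using 1
    all_goals first | rfl | (simp only [hc, gker, sg, dif]; ring)
  have anti1 : AntitoneOn W1 (Set.Icc 0 1) := by
    refine antitoneOn_of_deriv_nonpos (convex_Icc 0 1)
      (fun s _ => (dW1 s).continuousAt.continuousWithinAt)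
      (fun s _ => (dW1 s).differentiableAt.differentiableWithinAt) fun s hs => ?_
    rw [interior_Icc] at hs
    rw [(dW1 s).deriv, neg_nonpos]
    exact J_nonneg hP ha hs.1.le hs.2
  have anti : AntitoneOn W (Set.Icc 0 1) := by
    refine antitoneOn_of_deriv_nonpos (convex_Icc 0 1)
      (fun s _ => (dW s).continuousAt.continuousWithinAt)
      (fun s _ => (dW s).differentiableAt.differentiableWithinAt) fun s hs => ?_
    rw [interior_Icc] at hs
    rw [(dW s).deriv]
    have := anti1 (Set.left_mem_Icc.mpr zero_le_one) ⟨hs.1.le, hs.2.le⟩ hs.1.le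
    refine this.trans (le_of_eq ?_)
    simp [hW1]
  obtain ⟨θ, hθ, hθ'⟩ := exists_hasDerivAt_eq_slope S W (zero_lt_one' ℝ)
    (fun s _ => (dS s).continuousAt.continuousWithinAt) (fun s _ => dS s)
  have h1 : W 1 ≤ S 1 - S 0 := by
    have := anti ⟨hθ.1.le, hθ.2.le⟩ (Set.right_mem_Icc.mpr zero_le_one) hθ.2.le
    rw [hθ'] at this
    simpa using this
  have hS0 : S 0 = 0 := by simp [hS, sincScaled]
  have hS1 : ∀ d, sincScaled d 1 = Real.sinc d := fun d => by
    by_cases h : d = 0
    · simp [sincScaled, h]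
    · simp [sincScaled, h, Real.sinc_of_ne_zero h]
  rw [hS0, sub_zero] at h1
  refine (sub_nonneg.mpr h1).trans (le_of_eq ?_)
  simp only [hS, hW, hS1, one_mul, ← Finset.sum_sub_distrib]
  refine Finset.sum_congr rfl fun i _ => Finset.sum_congr rfl fun j _ =>
    Finset.sum_congr rfl fun k _ => ?_
  have := sg_pos ha i j
  have := sg_pos ha j k
  have := sg_pos ha k i
  simp only [hc, triW]
  rw [sg_symm a i k]
  field_simp

/-- The cotangent. -/
def ct (x : ℝ) : ℝ := Real.cos x / Real.sin x

/-- Minus the divided difference of the cotangent. -/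
def ctD (x y : ℝ) : ℝ := Real.sinc (x - y) / (Real.sin x * Real.sin y)

/-- The pointwise trace inequality. -/
theorem core_inequality {P : Matrix ι ι ℂ} (hP : P.PosSemidef) {a : ι → ℝ}
    (ha : ∀ i, 0 < a i ∧ a i < Real.pi / 2) :
    ∑ i, ∑ j, ∑ k, tri P i j k ≤ ∑ i, ∑ j, ∑ k, tri P i j k *
      (ctD (a i + a k) (a j + a k) - ct (a i + a j) * ct (a i + a k)) := by
  have h0 := sinc_minus_cos_nonneg hP ha
  have e1 : ∑ i, ∑ j, ∑ k, tri P i j k * (ct (a i + a j) * ct (a i + a k))
      = ∑ i, ∑ j, ∑ k, tri P i j k * (ct (a i + a k) * ct (a j + a k)) := by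
    rw [sum3_cycle]
    refine Finset.sum_congr rfl fun i _ => Finset.sum_congr rfl fun j _ =>
      Finset.sum_congr rfl fun k _ => ?_
    rw [tri_cycle, add_comm (a k), add_comm (a k)]
  rw [← sub_nonneg]
  refine h0.trans (le_of_eq ?_)
  simp only [mul_sub, Finset.sum_sub_distrib]
  rw [e1]
  simp only [← Finset.sum_sub_distrib]
  refine Finset.sum_congr rfl fun i _ => Finset.sum_congr rfl fun j _ =>
    Finset.sum_congr rfl fun k _ => ?_
  have h1 := sg_pos ha i k
  have h2 := sg_pos ha j k
  unfold sg at h1 h2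
  unfold ctD ct sg dif
  rw [show a i + a k - (a j + a k) = a i - a j by ring,
    show Real.cos (a i - a j) = Real.cos (a i + a k) * Real.cos (a j + a k)
      + Real.sin (a i + a k) * Real.sin (a j + a k) by rw [← Real.cos_sub]; ring_nf]
  field_simp
  ring

end

end Vale.Agent.P371
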