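import Vale.Agent.P371.Upper
import Mathlib.Probability.Distributions.Beta
import Mathlib.Analysis.SpecialFunctions.Gamma.Beta

/-! # Lifting the sharp bound to `1 < γ` -/

namespace Vale.Agent.P371.LT

open MeasureTheory Filter Topology Matrix
open scoped ComplexOrder ENNReal

noncomputable section

/-- A potential for the exponent `γ`: measurable, positive semidefinite, `∫ tr W^(γ+1/2) < ∞`. -/
def IsPotentialFor (g : ℝ) {m : ℕ} (W : ℝ → Matrix (Fin m) (Fin m) ℂ) : Prop :=
  (∀ a b, Measurable fun x => W x a b) ∧ (∀ x, (W x).PosSemidef) ∧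
    Integrable (fun x => trPow (g + 1 / 2) (W x))

/-- The layer-cake integral. -/
theorem lintegral_beta {a b : ℝ} (ha : 0 < a) (hb : 1 < b) {l : ℝ} (hl : 0 ≤ l) :
    ∫⁻ t in Set.Ioi (0 : ℝ), ENNReal.ofReal (t ^ (a - 1) * max (l - t) 0 ^ (b - 1))
      = ENNReal.ofReal (l ^ (a + b - 1) * ProbabilityTheory.beta a b) := by
  have hb1 : 0 < b - 1 := sub_pos.mpr hb
  rcases hl.eq_or_lt with rfl | hl
  · rw [Real.zero_rpow (by linarith), zero_mul, ENNReal.ofReal_zero]
    refine setLIntegral_eq_zero measurableSet_Ioi fun t ht => ?_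
    have : max (0 - t) 0 = 0 := max_eq_right (by linarith [Set.mem_Ioi.mp ht])
    rw [this, Real.zero_rpow hb1.ne', mul_zero, ENNReal.ofReal_zero]
    rfl
  have hint : IntervalIntegrable (fun t => t ^ (a - 1) * (l - t) ^ (b - 1)) volume 0 l :=
    (intervalIntegral.intervalIntegrable_rpow' (by linarith)).mul_continuousOn
      ((continuous_const.sub continuous_id).rpow_const fun t => Or.inr hb1.le).continuousOn
  have heq : ∫ t in (0 : ℝ)..l, t ^ (a - 1) * (l - t) ^ (b - 1)
      = l ^ (a + b - 1) * ProbabilityTheory.beta a b := by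
    have h1 := Complex.betaIntegral_scaled (a : ℂ) (b : ℂ) hl
    have h2 : ∫ t in (0 : ℝ)..l, (t : ℂ) ^ ((a : ℂ) - 1) * ((l : ℂ) - t) ^ ((b : ℂ) - 1)
        = ((∫ t in (0 : ℝ)..l, t ^ (a - 1) * (l - t) ^ (b - 1) : ℝ) : ℂ) := by
      rw [← intervalIntegral.integral_ofReal]
      refine intervalIntegral.integral_congr fun t ht => ?_
      rw [Set.uIcc_of_le hl.le] at ht
      rw [Complex.ofReal_mul, Complex.ofReal_cpow ht.1, Complex.ofReal_cpow (by linarith [ht.2])]
      push_cast; rfl
    rw [h2, show ((a : ℂ) + b - 1) = (((a + b - 1 : ℝ)) : ℂ) by push_cast; rfl,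
      ← Complex.ofReal_cpow hl.le] at h1
    have h3 := congrArg Complex.re h1
    rw [Complex.re_ofReal_mul, Complex.ofReal_re] at h3
    rw [h3, ProbabilityTheory.beta_eq_betaIntegralReal a b ha (by linarith)]
  rw [← heq, intervalIntegral.integral_of_le hl.le]
  have h0 : 0 ≤ᵐ[volume.restrict (Set.Ioc 0 l)] fun t => t ^ (a - 1) * (l - t) ^ (b - 1) := by
    filter_upwards [ae_restrict_mem measurableSet_Ioc] with t ht
    exact mul_nonneg (Real.rpow_nonneg ht.1.le _) (Real.rpow_nonneg (by linarith [ht.2]) _)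
  rw [ofReal_integral_eq_lintegral_ofReal hint.1 h0, ← lintegral_indicator measurableSet_Ioi,
    ← lintegral_indicator measurableSet_Ioc]
  refine lintegral_congr fun t => ?_
  by_cases ht : t ∈ Set.Ioc 0 l
  · rw [Set.indicator_of_mem ht, Set.indicator_of_mem (Set.mem_Ioi.mpr ht.1),
      max_eq_left (by linarith [ht.2])]
  · rw [Set.indicator_of_notMem ht]
    by_cases h : t ∈ Set.Ioi (0 : ℝ)
    · have : l < t := lt_of_not_ge fun h' => ht ⟨h, h'⟩
      rw [Set.indicator_of_mem h, max_eq_right (by linarith), Real.zero_rpow hb1.ne', mul_zero,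
        ENNReal.ofReal_zero]
    · rw [Set.indicator_of_notMem h]

/-- Indicator of the levels below `e`. -/
def chi (e t : ℝ) : ℝ := if t < e then 1 else 0

theorem chi_measurable (e : ℝ) : Measurable (chi e) :=
  Measurable.ite measurableSet_Iio measurable_const measurable_const

/-- Sharp bound for the eigenvalues below a threshold, and its lifting. -/
theorem lt_lift {g : ℝ} (hg : 1 < g) {m N : ℕ} {W : ℝ → Matrix (Fin m) (Fin m) ℂ}
    (hW : IsPotentialFor g W) {E : Fin N → ℝ} {ψ ψ' : Fin N → ℝ → Fin m → ℂ}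
    (h : IsBoundStates W E ψ ψ') :
    ∑ n, |E n| ^ g ≤ 2 / Real.sqrt 3 * (Real.Gamma (g + 1) /
      (2 * Real.sqrt Real.pi * Real.Gamma (g + 3 / 2))) * ∫ x, trPow (g + 1 / 2) (W x) := by
  obtain ⟨h1, h2, h3⟩ := h
  have hF := orthFam_of h1 h2
  set Φ : Fin N → Fin m → ℝ → ℂ := fun n a x => ψ n x a with hΦ
  set Φ' : Fin N → Fin m → ℝ → ℂ := fun n a x => ψ' n x a with hΦ'
  set p := g + 1 / 2 with hp
  set term : Fin N → ℝ → ℂ := fun n x => ∑ a, ∑ b, star (ψ n x a) * W x a b * ψ n x b with hterm
  set T : Fin N → ℝ → ℝ := fun n x => (term n x).re with hT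
  set d : Fin N → ℝ → ℝ := fun n x => ∑ a, Complex.normSq (ψ n x a) with hd
  set k : Fin N → ℝ → ℝ := fun n x => ∑ a, Complex.normSq (ψ' n x a) with hk
  have hre : ∀ n x, 0 ≤ T n x ∧ (term n x).im = 0 := by
    intro n x
    have h := (hW.2.1 x).dotProduct_mulVec_nonneg (fun a => ψ n x a)
    rw [← qf_eq] at h
    exact ⟨(Complex.le_def.mp h).1, (Complex.le_def.mp h).2.symm⟩
  have hpd : ∀ x, potDens (W x) (ymat Φ x) = ∑ n, T n x := fun x => by
    rw [potDens, Complex.re_sum]; rfl
  have hmeas : ∀ n, Measurable (term n) := by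
    intro n
    refine Finset.measurable_fun_sum _ fun a _ => Finset.measurable_fun_sum _ fun b _ => ?_
    exact ((continuous_star.measurable.comp ((hF.h1 n a).continuous.measurable)).mul
      (hW.1 a b)).mul ((hF.h1 n b).continuous.measurable)
  have hdc : ∀ n, Continuous (d n) := fun n => continuous_finsetSum _ fun a _ =>
    Complex.continuous_normSq.comp (hF.h1 n a).continuous
  have hdi : ∀ n, Integrable (d n) := fun n =>
    integrable_finsetSum _ fun a _ => (hF.h1 n a).normSq_integrable.1
  have hki : ∀ n, Integrable (k n) := fun n =>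
    integrable_finsetSum _ fun a _ => (hF.h1 n a).normSq_integrable.2
  obtain ⟨B, hB0, hB⟩ := hF.sum_bounded
  have hint : ∀ n, Integrable (term n) := by
    intro n
    refine Integrable.mono' (hF.frob_integrable.1.add (hW.2.2.const_mul B))
      (hmeas n).aestronglyMeasurable (Eventually.of_forall fun x => ?_)
    have e : term n x = ((T n x : ℝ) : ℂ) := Complex.ext rfl (by simp [(hre n x).2])
    rw [e, Complex.norm_real, Real.norm_eq_abs, abs_of_nonneg (hre n x).1]
    refine (Finset.single_le_sum (fun k _ => (hre k x).1) (Finset.mem_univ n)).trans ?_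
    obtain ⟨l, r, -, h0, hpow, e1, e2, -⟩ := potDens_spec (hW.2.1 x) (ymat Φ x)
    rw [← hpd, Pi.add_apply, e1, e2, ← hp, hpow, Finset.mul_sum, ← Finset.sum_add_distrib]
    refine Finset.sum_le_sum fun a _ => ?_
    have hrB : r a ≤ B :=
      ((Finset.single_le_sum (fun c _ => (h0 c).2) (Finset.mem_univ a)).trans (le_of_eq e2.symm)).trans
        (hB x)
    have hlp : 0 ≤ l a ^ p := Real.rpow_nonneg (h0 a).1 _
    rcases le_or_gt (l a) 1 with h | h
    · nlinarith [(h0 a).2]
    · have : l a ≤ l a ^ p := Real.self_le_rpow_of_one_le h.le (by rw [hp]; linarith)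
      nlinarith [(h0 a).2, (h0 a).1]
  have hTi : ∀ n, Integrable (T n) := fun n => Complex.reCLM.integrable_comp (hint n)
  have hnorm : ∀ n, ∫ x, d n x = 1 := by
    intro n
    have e := hF.orth n n
    rw [if_pos rfl] at e
    have : (fun x => dens Φ n n x) = fun x => ((d n x : ℝ) : ℂ) := by
      funext x
      simp only [dens_eq, hd, Complex.ofReal_sum, Complex.star_def, Complex.mul_conj]
      rfl
    rw [this, integral_complex_ofReal] at e
    exact_mod_cast e
  have key : ∀ n, |E n| = (∫ x, T n x) - ∫ x, k n x := by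
    intro n
    have hq := (h3 n).2 (ψ n) (ψ' n) (h1 n)
    rw [h2 n n, if_pos rfl, mul_one, form] at hq
    have hk : inner2 (ψ' n) (ψ' n) = ((∫ x, k n x : ℝ) : ℂ) := by
      rw [inner2, ← integral_complex_ofReal]
      refine integral_congr_ae (Eventually.of_forall fun x => ?_)
      simp only [hk, Complex.ofReal_sum]
      exact Finset.sum_congr rfl fun a _ => (Complex.normSq_eq_conj_mul_self).symm
    rw [hk] at hq
    have := congrArg Complex.re hq
    rw [Complex.sub_re, Complex.ofReal_re, Complex.ofReal_re] at this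
    have hi : (∫ x, term n x).re = ∫ x, T n x :=
      (Complex.reCLM.integral_comp_comm (hint n)).symm
    rw [abs_of_neg (h3 n).1]
    linarith
  -- the density below a threshold
  set X : Fin N → ℝ → ℝ := fun n t => chi |E n| t with hX
  set f : ℝ → ℝ → ℝ := fun t x => (∑ n, X n t * (T n x - t * d n x))
    - Real.pi ^ 2 / 4 * ∑ i, ∑ j, ∑ l, X i t * X j t * X l t
        * tri (ymat Φ x * (ymat Φ x)ᴴ) i j l with hf
  have htri : ∀ i j l, Continuous fun x => tri (ymat Φ x * (ymat Φ x)ᴴ) i j l := fun i j l =>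
    Complex.continuous_re.comp (((hF.dens_continuous i j).mul (hF.dens_continuous j l)).mul
      (hF.dens_continuous l i))
  have hfm : Measurable (Function.uncurry f) := by
    refine (Finset.measurable_fun_sum _ fun n _ => ?_).sub (measurable_const.mul
      (Finset.measurable_fun_sum _ fun i _ => Finset.measurable_fun_sum _ fun j _ =>
        Finset.measurable_fun_sum _ fun l _ => ?_))
    · exact ((chi_measurable _).comp measurable_fst).mul
        ((((Complex.measurable_re.comp (hmeas n))).comp measurable_snd).sub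
          (measurable_fst.mul ((hdc n).measurable.comp measurable_snd)))
    · exact ((((chi_measurable _).comp measurable_fst).mul ((chi_measurable _).comp measurable_fst)).mul
        ((chi_measurable _).comp measurable_fst)).mul ((htri i j l).measurable.comp measurable_snd)
  have hlevel : ∀ t, 0 < t →
      ENNReal.ofReal (∑ n, max (|E n| - t) 0) ≤ ∫⁻ x, ENNReal.ofReal (f t x) ∧
      ∀ x, f t x ≤ ltConst * ∑ a, max ((hW.2.1 x).isHermitian.eigenvalues a - t) 0
        ^ ((3 : ℝ) / 2) := by
    intro t ht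
    let S := {n : Fin N // t < |E n|}
    set ΦS : S → Fin m → ℝ → ℂ := fun n => Φ n with hΦS
    set ΦS' : S → Fin m → ℝ → ℂ := fun n => Φ' n with hΦS'
    have hS : OrthFam ΦS ΦS' :=
      ⟨fun n => hF.h1 n, fun n j => by
        refine Eq.trans (hF.orth n j) ?_
        exact if_congr Subtype.ext_iff.symm rfl rfl⟩
    have sumS : ∀ F : Fin N → ℝ, ∑ n : S, F n = ∑ n, X n t * F n := fun F => by
      rw [← Finset.sum_subtype (Finset.univ.filter fun n => t < |E n|) (by simp), Finset.sum_filter]
      exact Finset.sum_congr rfl fun n _ => by simp only [hX, chi, ite_mul, one_mul, zero_mul]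
    have hfS : ∀ x, f t x = (potDens (W x) (ymat ΦS x) - t * frobSq (ymat ΦS x))
        - Real.pi ^ 2 / 4 * cubeTr (ymat ΦS x * (ymat ΦS x)ᴴ) := by
      intro x
      have a1 : potDens (W x) (ymat ΦS x) = ∑ n : S, T n x := by rw [potDens, Complex.re_sum]; rfl
      have a2 : frobSq (ymat ΦS x) = ∑ n : S, d n x := rfl
      have a3 : cubeTr (ymat ΦS x * (ymat ΦS x)ᴴ)
          = ∑ i : S, ∑ j : S, ∑ l : S, tri (ymat Φ x * (ymat Φ x)ᴴ) i j l := by
        rw [cubeTr_eq]; rfl
      rw [a1, a2, a3, sumS fun n => T n x, sumS fun n => d n x]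
      simp only [hf]
      have e4 : ∑ n, X n t * (T n x - t * d n x) = (∑ n, X n t * T n x) - t * ∑ n, X n t * d n x := by
        rw [Finset.mul_sum, ← Finset.sum_sub_distrib]
        exact Finset.sum_congr rfl fun n _ => by ring
      rw [e4]
      congr 2
      rw [sumS fun i => ∑ j : S, ∑ l : S, tri (ymat Φ x * (ymat Φ x)ᴴ) i j l]
      refine Finset.sum_congr rfl fun i _ => ?_
      rw [sumS fun j => ∑ l : S, tri (ymat Φ x * (ymat Φ x)ᴴ) i j l, Finset.mul_sum]
      refine Finset.sum_congr rfl fun j _ => ?_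
      rw [sumS fun l => tri (ymat Φ x * (ymat Φ x)ᴴ) i j l, Finset.mul_sum, Finset.mul_sum]
      exact Finset.sum_congr rfl fun l _ => by ring
    refine ⟨?_, fun x => ?_⟩
    · have e1 : ∑ n, max (|E n| - t) 0 = ∑ n : S, (|E n| - t) := by
        rw [sumS fun n => |E n| - t]
        refine Finset.sum_congr rfl fun n _ => ?_
        simp only [hX, chi]
        split_ifs with h
        · rw [one_mul, max_eq_left (by linarith)]
        · rw [zero_mul, max_eq_right (by linarith)]
      have iT : Integrable fun x => ∑ n : S, (T n x - t * d n x) :=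
        integrable_finsetSum _ fun n _ => (hTi n).sub ((hdi n).const_mul t)
      have iK : ∫ x, frobSq (ymat ΦS' x) = ∑ n : S, ∫ x, k n x := by
        exact integral_finsetSum Finset.univ (f := fun (n : S) x => k n x) fun n _ => hki n
      have hfi : Integrable (f t) := by
        have : f t = fun x => (∑ n : S, (T n x - t * d n x))
            - Real.pi ^ 2 / 4 * cubeTr (ymat ΦS x * (ymat ΦS x)ᴴ) := by
          funext x
          rw [hfS, Finset.sum_sub_distrib, ← Finset.mul_sum,
            show potDens (W x) (ymat ΦS x) = ∑ n : S, T n x by rw [potDens, Complex.re_sum]; rfl]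
          rfl
        rw [this]
        exact iT.sub (hS.cube_integrable.2.const_mul _)
      have hle : ∑ n, max (|E n| - t) 0 ≤ ∫ x, f t x := by
        have : ∫ x, f t x = (∑ n : S, ((∫ x, T n x) - t))
            - Real.pi ^ 2 / 4 * ∫ x, cubeTr (ymat ΦS x * (ymat ΦS x)ᴴ) := by
          rw [← integral_const_mul]
          have e : ∑ n : S, ((∫ x, T n x) - t) = ∫ x, ∑ n : S, (T n x - t * d n x) := by
            rw [integral_finsetSum Finset.univ (f := fun (n : S) x => T n x - t * d n x)
              fun n _ => (hTi n).sub ((hdi n).const_mul t)]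
            refine Finset.sum_congr rfl fun n _ => ?_
            rw [integral_sub (hTi n) ((hdi n).const_mul t), integral_const_mul, hnorm, mul_one]
          rw [e, ← integral_sub iT (hS.cube_integrable.2.const_mul _)]
          refine integral_congr_ae (Eventually.of_forall fun x => ?_)
          simp only [hfS, Finset.sum_sub_distrib, ← Finset.mul_sum]
          rw [show potDens (W x) (ymat ΦS x) = ∑ n : S, T n x by rw [potDens, Complex.re_sum]; rfl]
          rfl
        rw [e1, this]
        simp only [key, Finset.sum_sub_distrib]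
        have := hS.sharp
        rw [iK] at this
        linarith
      refine (ENNReal.ofReal_le_ofReal hle).trans ?_
      calc ENNReal.ofReal (∫ x, f t x) ≤ ENNReal.ofReal (∫ x, max (f t x) 0) :=
            ENNReal.ofReal_le_ofReal (integral_mono hfi hfi.pos_part fun x => le_max_left _ _)
        _ = _ := by
            rw [ofReal_integral_eq_lintegral_ofReal hfi.pos_part
              (Eventually.of_forall fun x => le_max_right _ _)]
            refine lintegral_congr fun x => ?_
            rcases le_total (f t x) 0 with h | h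
            · rw [max_eq_right h, ENNReal.ofReal_zero, ENNReal.ofReal_of_nonpos h]
            · rw [max_eq_left h]
    · rw [hfS]
      obtain ⟨l, r, hl, h0, -, e1, e2, e3⟩ := potDens_spec (hW.2.1 x) (ymat ΦS x)
      rw [← hl, e1, e2, Finset.mul_sum, ← Finset.sum_sub_distrib, Finset.mul_sum]
      have hy : ∀ a, l a * r a - t * r a
          ≤ ltConst * max (l a - t) 0 ^ ((3 : ℝ) / 2) + Real.pi ^ 2 / 4 * r a ^ 3 := fun a => by
        refine le_trans ?_ (young (le_max_right _ _) (h0 a).2)
        rw [← sub_mul]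
        exact mul_le_mul_of_nonneg_right (le_max_left _ _) (h0 a).2
      have := Finset.sum_le_sum (s := Finset.univ) fun a (_ : a ∈ Finset.univ) => hy a
      rw [Finset.sum_add_distrib, ← Finset.mul_sum (a := Real.pi ^ 2 / 4)] at this
      nlinarith [mul_le_mul_of_nonneg_left e3 (by positivity : (0 : ℝ) ≤ Real.pi ^ 2 / 4)]
  -- integrate over the threshold
  have hg1 : 0 < g - 1 := by linarith
  set b2 := ProbabilityTheory.beta (g - 1) 2 with hb2
  set b5 := ProbabilityTheory.beta (g - 1) (5 / 2) with hb5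
  have hb2p : 0 < b2 := ProbabilityTheory.beta_pos hg1 (by norm_num)
  have hb5p : 0 < b5 := ProbabilityTheory.beta_pos hg1 (by norm_num)
  have hcp : 0 < ltConst := by unfold ltConst; positivity
  have hI : 0 ≤ ∫ x, trPow p (W x) := integral_nonneg fun x => by
    rw [trPow, dif_pos (hW.2.1 x).isHermitian]
    exact Finset.sum_nonneg fun a _ => Real.rpow_nonneg ((hW.2.1 x).eigenvalues_nonneg a) _
  have hmain : ENNReal.ofReal ((∑ n, |E n| ^ g) * b2)
      ≤ ENNReal.ofReal (ltConst * b5 * ∫ x, trPow p (W x)) := by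
    have eL : ENNReal.ofReal ((∑ n, |E n| ^ g) * b2)
        = ∫⁻ t in Set.Ioi (0 : ℝ), ENNReal.ofReal (t ^ (g - 1 - 1))
            * ENNReal.ofReal (∑ n, max (|E n| - t) 0) := by
      rw [Finset.sum_mul, ENNReal.ofReal_sum_of_nonneg fun n _ =>
        mul_nonneg (Real.rpow_nonneg (abs_nonneg _) _) hb2p.le]
      have e : ∀ n, ENNReal.ofReal (|E n| ^ g * b2) = ∫⁻ t in Set.Ioi (0 : ℝ),
          ENNReal.ofReal (t ^ (g - 1 - 1) * max (|E n| - t) 0 ^ ((2 : ℝ) - 1)) := fun n => by
        rw [lintegral_beta hg1 (by norm_num) (abs_nonneg _), show g - 1 + 2 - 1 = g by ring]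
      simp only [e]
      rw [← lintegral_finsetSum _ fun n _ => by fun_prop]
      refine setLIntegral_congr_fun measurableSet_Ioi fun t ht => ?_
      rw [← ENNReal.ofReal_mul (Real.rpow_nonneg (le_of_lt ht) _), Finset.mul_sum,
        ENNReal.ofReal_sum_of_nonneg fun n _ =>
          mul_nonneg (Real.rpow_nonneg (le_of_lt ht) _) (le_max_right _ _)]
      norm_num
    rw [eL]
    calc ∫⁻ t in Set.Ioi (0 : ℝ), ENNReal.ofReal (t ^ (g - 1 - 1))
            * ENNReal.ofReal (∑ n, max (|E n| - t) 0)
        ≤ ∫⁻ t in Set.Ioi (0 : ℝ), ∫⁻ x, ENNReal.ofReal (t ^ (g - 1 - 1))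
            * ENNReal.ofReal (f t x) := by
          refine setLIntegral_mono' measurableSet_Ioi fun t ht => ?_
          rw [lintegral_const_mul' _ _ ENNReal.ofReal_ne_top]
          exact mul_le_mul' le_rfl (hlevel t ht).1
      _ = ∫⁻ x, ∫⁻ t in Set.Ioi (0 : ℝ), ENNReal.ofReal (t ^ (g - 1 - 1))
            * ENNReal.ofReal (f t x) := by
          refine lintegral_lintegral_swap (Measurable.aemeasurable ?_)
          exact ((measurable_fst.pow_const _).ennreal_ofReal).mul hfm.ennreal_ofReal
      _ ≤ ∫⁻ x, ENNReal.ofReal (ltConst * b5 * trPow p (W x)) := by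
          refine lintegral_mono fun x => ?_
          have hH := (hW.2.1 x).isHermitian
          rw [trPow, dif_pos hH, Finset.mul_sum, ENNReal.ofReal_sum_of_nonneg fun a _ =>
            mul_nonneg (mul_pos hcp hb5p).le (Real.rpow_nonneg ((hW.2.1 x).eigenvalues_nonneg a) _)]
          have e : ∀ a, ENNReal.ofReal (ltConst * b5 * hH.eigenvalues a ^ p)
              = ∫⁻ t in Set.Ioi (0 : ℝ), ENNReal.ofReal ltConst * ENNReal.ofReal
                (t ^ (g - 1 - 1) * max (hH.eigenvalues a - t) 0 ^ ((5 / 2 : ℝ) - 1)) := fun a => by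
            rw [lintegral_const_mul' _ _ ENNReal.ofReal_ne_top,
              lintegral_beta hg1 (by norm_num) ((hW.2.1 x).eigenvalues_nonneg a),
              ← ENNReal.ofReal_mul hcp.le, show g - 1 + 5 / 2 - 1 = p by rw [hp]; ring]
            congr 1; ring
          simp only [e]
          rw [← lintegral_finsetSum _ fun a _ => by fun_prop]
          refine setLIntegral_mono' measurableSet_Ioi fun t ht => ?_
          have ht' : 0 ≤ t ^ (g - 1 - 1) := Real.rpow_nonneg (le_of_lt ht) _
          rw [← ENNReal.ofReal_mul ht']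
          refine (ENNReal.ofReal_le_ofReal
            (mul_le_mul_of_nonneg_left ((hlevel t ht).2 x) ht')).trans (le_of_eq ?_)
          rw [Finset.mul_sum, Finset.mul_sum, ENNReal.ofReal_sum_of_nonneg fun a _ =>
            mul_nonneg ht' (mul_nonneg hcp.le (Real.rpow_nonneg (le_max_right _ _) _))]
          refine Finset.sum_congr rfl fun a _ => ?_
          rw [← ENNReal.ofReal_mul hcp.le]
          congr 1; norm_num; ring
      _ = _ := by
          rw [← integral_const_mul, ofReal_integral_eq_lintegral_ofReal (hW.2.2.const_mul _)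
            (Eventually.of_forall fun x => ?_)]
          refine mul_nonneg (mul_pos hcp hb5p).le ?_
          rw [trPow, dif_pos (hW.2.1 x).isHermitian]
          exact Finset.sum_nonneg fun a _ =>
            Real.rpow_nonneg ((hW.2.1 x).eigenvalues_nonneg a) _
  have h' := (ENNReal.ofReal_le_ofReal_iff
    (mul_nonneg (mul_pos hcp hb5p).le hI)).mp hmain
  have hC : ltConst * b5 = 2 / Real.sqrt 3 * (Real.Gamma (g + 1) /
      (2 * Real.sqrt Real.pi * Real.Gamma (g + 3 / 2))) * b2 := by
    have g2 : Real.Gamma (5 / 2) = 3 / 4 * Real.sqrt Real.pi := by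
      rw [show (5 / 2 : ℝ) = 3 / 2 + 1 by norm_num, Real.Gamma_add_one (by norm_num),
        show (3 / 2 : ℝ) = 1 / 2 + 1 by norm_num, Real.Gamma_add_one (by norm_num),
        Real.Gamma_one_half_eq]
      ring
    rw [hb5, hb2, ProbabilityTheory.beta, ProbabilityTheory.beta, g2, Real.Gamma_two,
      show g - 1 + 5 / 2 = g + 3 / 2 by ring, show g - 1 + 2 = g + 1 by ring, ltConst]
    have h3 : Real.sqrt 3 ≠ 0 := by positivity
    have hs0 : Real.sqrt Real.pi ≠ 0 := by positivity
    have := (Real.Gamma_pos_of_pos (by linarith : 0 < g + 1)).ne'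
    have := (Real.Gamma_pos_of_pos (by linarith : 0 < g + 3 / 2)).ne'
    field_simp
    exact Real.sq_sqrt Real.pi_pos.le
  rw [hC] at h'
  refine le_of_mul_le_mul_right ?_ hb2p
  linarith

end

end Vale.Agent.P371.LT
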