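import Vale.Agent.P371.Upper
import Mathlib.Analysis.SpecialFunctions.ImproperIntegrals
import Mathlib.Analysis.SpecialFunctions.Arsinh
import Mathlib.Analysis.SpecialFunctions.Trigonometric.ArctanDeriv
import Mathlib.LinearAlgebra.Matrix.Charpoly.Basic
import Mathlib.Analysis.Matrix.Spectrum

/-! # The soliton attains the constant -/

namespace Vale.Agent.P371.LT

open MeasureTheory Filter Topology Matrix
open scoped ComplexOrder

noncomputable section

theorem trPow_diagonal {m : ℕ} (p : ℝ) (d : Fin m → ℝ) :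
    trPow p (diagonal fun i => (d i : ℂ)) = ∑ i, d i ^ p := by
  have hH : (diagonal fun i => (d i : ℂ)).IsHermitian := by
    rw [IsHermitian, diagonal_conjTranspose]
    congr 1; funext i; simp
  rw [trPow, dif_pos hH]
  have h1 := hH.roots_charpoly_eq_eigenvalues
  rw [charpoly_diagonal, Polynomial.roots_prod _ _ (Finset.prod_ne_zero_iff.mpr
    fun i _ => Polynomial.X_sub_C_ne_zero _)] at h1
  simp only [Polynomial.roots_X_sub_C, Multiset.bind_singleton] at h1
  have h2 := congrArg (fun s : Multiset ℂ => (s.map fun z : ℂ => z.re ^ p).sum) h1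
  simp only [Multiset.map_map, Function.comp_apply, Complex.ofReal_re] at h2
  exact h2.symm

/-- `sech`. -/
def sech (x : ℝ) : ℝ := (Real.cosh x)⁻¹

theorem sech_pos (x : ℝ) : 0 < sech x := inv_pos.mpr (Real.cosh_pos x)

theorem hasDerivAt_sech (x : ℝ) :
    HasDerivAt sech (-(Real.sinh x) * sech x ^ 2) x := by
  refine ((Real.hasDerivAt_cosh x).inv (Real.cosh_pos x).ne').congr_deriv ?_
  unfold sech
  field_simp

theorem sech_continuous : Continuous sech :=
  continuous_iff_continuousAt.mpr fun x => (hasDerivAt_sech x).continuousAt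

theorem sech_le (x : ℝ) : sech x ≤ 4 * (1 + x ^ 2)⁻¹ := by
  have h : (1 + x ^ 2) / 4 ≤ Real.cosh x := by
    rw [Real.cosh_eq]
    rcases le_or_gt 0 x with hx | hx
    · have := Real.quadratic_le_exp_of_nonneg hx
      nlinarith [Real.add_one_le_exp (-x)]
    · have := Real.quadratic_le_exp_of_nonneg (neg_nonneg.mpr hx.le)
      nlinarith [Real.add_one_le_exp x]
  unfold sech
  rw [← div_eq_mul_inv, inv_le_iff_one_le_mul₀ (Real.cosh_pos x), div_mul_eq_mul_div,
    le_div_iff₀ (by positivity)]
  linarith

theorem sech_le_one (x : ℝ) : sech x ≤ 1 := by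
  unfold sech
  exact inv_le_one_of_one_le₀ (Real.one_le_cosh x)

theorem sech_integrable : Integrable sech := by
  refine Integrable.mono' (integrable_inv_one_add_sq.const_mul 4) sech_continuous.aestronglyMeasurable
    (Eventually.of_forall fun x => ?_)
  rw [Real.norm_eq_abs, abs_of_pos (sech_pos x)]
  exact sech_le x

theorem sech_tendsto_atTop : Tendsto sech atTop (𝓝 0) := by
  refine squeeze_zero (fun x => (sech_pos x).le) sech_le ?_
  have h : Tendsto (fun x : ℝ => 1 + x ^ 2) atTop atTop :=
    tendsto_atTop_add_const_left _ _ (tendsto_pow_atTop two_ne_zero)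
  simpa using h.inv_tendsto_atTop.const_mul 4

theorem sech_tendsto_atBot : Tendsto sech atBot (𝓝 0) := by
  have := sech_tendsto_atTop.comp tendsto_neg_atBot_atTop
  refine this.congr fun x => ?_
  simp [sech, Real.cosh_neg]

theorem sinh_tendsto : Tendsto Real.sinh atTop atTop ∧ Tendsto Real.sinh atBot atBot :=
  ⟨Real.sinhOrderIso.tendsto_atTop, Real.sinhOrderIso.tendsto_atBot⟩

theorem sech_sq_add (x : ℝ) : (Real.sinh x * sech x) ^ 2 + sech x ^ 2 = 1 := by
  unfold sech
  have := Real.cosh_sq x
  have := Real.cosh_pos x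
  field_simp
  linarith

theorem integral_sech : ∫ x, sech x = Real.pi := by
  have hd : ∀ x, HasDerivAt (fun y => Real.arctan (Real.sinh y)) (sech x) x := by
    intro x
    refine ((Real.hasDerivAt_arctan _).comp x (Real.hasDerivAt_sinh x)).congr_deriv ?_
    unfold sech
    have := Real.cosh_sq x
    have := Real.cosh_pos x
    rw [show 1 + Real.sinh x ^ 2 = Real.cosh x ^ 2 by linarith]
    field_simp
  rw [integral_of_hasDerivAt_of_tendsto hd sech_integrable
    ((tendsto_nhds_of_tendsto_nhdsWithin Real.tendsto_arctan_atBot).comp sinh_tendsto.2)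
    ((tendsto_nhds_of_tendsto_nhdsWithin Real.tendsto_arctan_atTop).comp sinh_tendsto.1)]
  ring

theorem sech_cube_integrable : Integrable fun x => sech x ^ 3 := by
  refine Integrable.mono' sech_integrable (sech_continuous.pow 3).aestronglyMeasurable
    (Eventually.of_forall fun x => ?_)
  rw [Real.norm_eq_abs, abs_of_pos (pow_pos (sech_pos x) 3)]
  exact pow_le_of_le_one (sech_pos x).le (sech_le_one x) (by norm_num)

theorem integral_sech_cube : ∫ x, sech x ^ 3 = Real.pi / 2 := by
  have hd : ∀ x, HasDerivAt (fun y => (Real.sinh y * sech y ^ 2 + Real.arctan (Real.sinh y)) / 2)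
      (sech x ^ 3) x := by
    intro x
    have h1 := (Real.hasDerivAt_sinh x).mul ((hasDerivAt_sech x).pow 2)
    have h2 := (Real.hasDerivAt_arctan _).comp x (Real.hasDerivAt_sinh x)
    refine ((h1.add h2).div_const 2).congr_deriv ?_
    unfold sech
    have hc := Real.cosh_sq x
    have := Real.cosh_pos x
    rw [show 1 + Real.sinh x ^ 2 = Real.cosh x ^ 2 by linarith]
    field_simp
    simp only [Pi.pow_apply, Pi.inv_apply]
    push_cast
    field_simp
    ring_nf
    nlinarith [hc]
  have hz : ∀ {l : Filter ℝ}, Tendsto sech l (𝓝 0) →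
      Tendsto (fun y => Real.sinh y * sech y ^ 2) l (𝓝 0) := by
    intro l hl
    refine squeeze_zero_norm (fun y => ?_) hl
    rw [Real.norm_eq_abs, show Real.sinh y * sech y ^ 2 = (Real.sinh y * sech y) * sech y by ring,
      abs_mul, abs_of_pos (sech_pos y)]
    refine mul_le_of_le_one_left (sech_pos y).le ?_
    nlinarith [sech_sq_add y, sq_nonneg (sech y), sq_abs (Real.sinh y * sech y),
      abs_nonneg (Real.sinh y * sech y)]
  rw [integral_of_hasDerivAt_of_tendsto hd sech_cube_integrable
    (((hz sech_tendsto_atBot).add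
      ((tendsto_nhds_of_tendsto_nhdsWithin Real.tendsto_arctan_atBot).comp sinh_tendsto.2)).div_const 2)
    (((hz sech_tendsto_atTop).add
      ((tendsto_nhds_of_tendsto_nhdsWithin Real.tendsto_arctan_atTop).comp sinh_tendsto.1)).div_const 2)]
  ring

/-- The bound state `(sech)^(1/2)/√π`. -/
def bst (x : ℝ) : ℝ := Real.sqrt (sech x) / Real.sqrt Real.pi

/-- Its derivative. -/
def bst' (x : ℝ) : ℝ := -(1 / 2) * (Real.sinh x * sech x) * bst x

theorem hasDerivAt_bst (x : ℝ) : HasDerivAt bst (bst' x) x := by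
  refine (((hasDerivAt_sech x).sqrt (sech_pos x).ne').div_const (Real.sqrt Real.pi)).congr_deriv ?_
  unfold bst' bst
  have h := Real.mul_self_sqrt (sech_pos x).le
  have h2 := Real.sqrt_pos.mpr (sech_pos x)
  field_simp
  linear_combination (Real.sinh x * sech x) * h

theorem hasDerivAt_bst' (x : ℝ) :
    HasDerivAt bst' ((1 / 4 - 3 / 4 * sech x ^ 2) * bst x) x := by
  have h1 := ((Real.hasDerivAt_sinh x).mul (hasDerivAt_sech x)).const_mul (-(1 / 2) : ℝ)
  refine (h1.mul (hasDerivAt_bst x)).congr_deriv ?_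
  simp only [bst', Pi.mul_apply]
  have e := sech_sq_add x
  have hc : Real.cosh x * sech x = 1 := mul_inv_cancel₀ (Real.cosh_pos x).ne'
  linear_combination (3 / 4 * bst x) * e + (-(1 / 2) * bst x) * hc

theorem bst_sq (x : ℝ) : bst x ^ 2 = sech x / Real.pi := by
  rw [bst, div_pow, Real.sq_sqrt (sech_pos x).le, Real.sq_sqrt Real.pi_pos.le]

theorem bst'_abs (x : ℝ) : |bst' x| ≤ bst x := by
  have hb : 0 ≤ bst x := by unfold bst; positivity
  rw [bst', abs_mul, abs_mul, abs_of_nonneg hb, show |(-(1 / 2) : ℝ)| = 1 / 2 by norm_num]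
  have : |Real.sinh x * sech x| ≤ 1 := by
    nlinarith [sech_sq_add x, sq_nonneg (sech x), sq_abs (Real.sinh x * sech x),
      abs_nonneg (Real.sinh x * sech x)]
  exact mul_le_of_le_one_left hb (by linarith)

theorem bst_continuous : Continuous bst :=
  continuous_iff_continuousAt.mpr fun x => (hasDerivAt_bst x).continuousAt

theorem bst'_continuous : Continuous bst' :=
  continuous_iff_continuousAt.mpr fun x => (hasDerivAt_bst' x).continuousAt

theorem bst_tendsto {l : Filter ℝ} (hl : Tendsto sech l (𝓝 0)) : Tendsto bst' l (𝓝 0) := by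
  refine squeeze_zero_norm (a := bst) (fun x => by rw [Real.norm_eq_abs]; exact bst'_abs x) ?_
  have := ((Real.continuous_sqrt.tendsto 0).comp hl).div_const (Real.sqrt Real.pi)
  simp only [Real.sqrt_zero, zero_div] at this
  exact this

theorem bst_h1 : IsH1 (fun x => (bst x : ℂ)) (fun x => (bst' x : ℂ)) := by
  have hint : Integrable (fun x => bst x ^ 2) := by
    simp only [bst_sq]; exact sech_integrable.div_const _
  refine ⟨?_, ?_, fun a b => ?_⟩
  · refine (memLp_two_iff_integrable_sq_norm
      (Complex.continuous_ofReal.comp bst_continuous).aestronglyMeasurable).mpr ?_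
    exact hint.congr (Eventually.of_forall fun x => by simp [Complex.norm_real])
  · refine (memLp_two_iff_integrable_sq_norm
      (Complex.continuous_ofReal.comp bst'_continuous).aestronglyMeasurable).mpr ?_
    refine Integrable.mono' hint ((Complex.continuous_ofReal.comp bst'_continuous).norm.pow 2).aestronglyMeasurable
      (Eventually.of_forall fun x => ?_)
    simp only [Function.comp_apply, Complex.norm_real, Real.norm_eq_abs, sq_abs, abs_pow]
    nlinarith [bst'_abs x, sq_abs (bst' x), abs_nonneg (bst' x)]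
  · have := intervalIntegral.integral_eq_sub_of_hasDerivAt (fun x _ => hasDerivAt_bst x)
      (bst'_continuous.intervalIntegrable a b)
    rw [intervalIntegral.integral_ofReal, this]
    push_cast; ring

theorem integral_acc {G g : ℝ → ℂ} {a b : ℝ} (hG : ACc G a b) (hd : ∀ᵐ x, HasDerivAt G (g x) x)
    (hg : IntervalIntegrable g volume a b) : ∫ x in a..b, g x = G b - G a := by
  apply Complex.ext
  · rw [Complex.sub_re, ← hG.1.integral_deriv_eq_sub]
    have := Complex.reCLM.intervalIntegral_comp_comm hg
    simp only [Complex.reCLM_apply] at this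
    rw [← this]
    refine intervalIntegral.integral_congr_ae ?_
    filter_upwards [hd] with x hx _
    exact (Complex.reCLM.hasFDerivAt.comp_hasDerivAt x hx).deriv.symm
  · rw [Complex.sub_im, ← hG.2.integral_deriv_eq_sub]
    have := Complex.imCLM.intervalIntegral_comp_comm hg
    simp only [Complex.imCLM_apply] at this
    rw [← this]
    refine intervalIntegral.integral_congr_ae ?_
    filter_upwards [hd] with x hx _
    exact (Complex.imCLM.hasFDerivAt.comp_hasDerivAt x hx).deriv.symm

theorem bst_weak {f f' : ℝ → ℂ} (hf : IsH1 f f') :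
    Integrable (fun x => star (f' x) * (bst' x : ℂ)) ∧
    Integrable (fun x => star (f x) * ((3 / 4 * sech x ^ 2 : ℝ) : ℂ) * (bst x : ℂ)) ∧
    (∫ x, star (f' x) * (bst' x : ℂ))
      - (∫ x, star (f x) * ((3 / 4 * sech x ^ 2 : ℝ) : ℂ) * (bst x : ℂ))
      = ((-1 / 4 : ℝ) : ℂ) * ∫ x, star (f x) * (bst x : ℂ) := by
  have hb := bst_h1
  have prod : ∀ {u v : ℝ → ℂ}, MemLp u 2 volume → MemLp v 2 volume →
      Integrable (fun x => star (u x) * v x) := by
    intro u v hu hv
    refine Integrable.mono' (((memLp_two_iff_integrable_sq_norm hu.1).mp hu).add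
      ((memLp_two_iff_integrable_sq_norm hv.1).mp hv))
      ((continuous_star.comp_aestronglyMeasurable hu.1).mul hv.1) (Eventually.of_forall fun x => ?_)
    simp only [Pi.add_apply, norm_mul, norm_star]
    nlinarith [sq_nonneg (‖u x‖ - ‖v x‖), norm_nonneg (u x), norm_nonneg (v x)]
  have i1 := prod hf.2.1 hb.2.1
  have i3 := prod hf.1 hb.1
  have i2 : Integrable (fun x => star (f x) * ((3 / 4 * sech x ^ 2 : ℝ) : ℂ) * (bst x : ℂ)) := by
    refine Integrable.mono' i3.norm (((continuous_star.comp hf.continuous).mul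
      (Complex.continuous_ofReal.comp (continuous_const.mul (sech_continuous.pow 2)))).mul
      (Complex.continuous_ofReal.comp bst_continuous)).aestronglyMeasurable
      (Eventually.of_forall fun x => ?_)
    simp only [norm_mul, norm_star, Complex.norm_real, Real.norm_eq_abs]
    have h1 : |3 / 4 * sech x ^ 2| ≤ 1 := by
      rw [abs_of_nonneg (by positivity)]
      nlinarith [sech_le_one x, sech_pos x]
    rw [abs_mul] at h1
    exact mul_le_mul_of_nonneg_right (mul_le_of_le_one_right (norm_nonneg _) h1) (abs_nonneg _)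
  refine ⟨i1, i2, ?_⟩
  set g : ℝ → ℂ := fun x => star (f' x) * (bst' x : ℂ)
    + (star (f x) * (bst x : ℂ) * ((1 / 4 : ℝ) : ℂ)
      - star (f x) * ((3 / 4 * sech x ^ 2 : ℝ) : ℂ) * (bst x : ℂ)) with hg
  have hgi : Integrable g := i1.add ((i3.mul_const _).sub i2)
  set G : ℝ → ℂ := fun x => star (f x) * (bst' x : ℂ) with hG
  have hb'cont : Continuous fun x => (((1 / 4 - 3 / 4 * sech x ^ 2) * bst x : ℝ) : ℂ) :=
    Complex.continuous_ofReal.comp
      ((continuous_const.sub (continuous_const.mul (sech_continuous.pow 2))).mul bst_continuous)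
  have hbac : ∀ a b, ACc (fun x => (bst' x : ℂ)) a b := by
    intro a b
    have e : (fun x => (bst' x : ℂ)) = fun x => (bst' 0 : ℂ)
        + ∫ t in (0 : ℝ)..x, (((1 / 4 - 3 / 4 * sech t ^ 2) * bst t : ℝ) : ℂ) := by
      funext x
      rw [intervalIntegral.integral_eq_sub_of_hasDerivAt (fun t _ => (hasDerivAt_bst' t).ofReal_comp)
        (hb'cont.intervalIntegrable 0 x)]
      ring
    rw [e]
    exact ACc.prim (fun u v => hb'cont.intervalIntegrable u v) _ a b
  have hd : ∀ᵐ x, HasDerivAt G (g x) x := by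
    filter_upwards [hf.ae_deriv] with x hx
    have h1 : HasDerivAt (fun y => star (f y)) (star (f' x)) x :=
      Complex.conjCLE.toContinuousLinearMap.hasFDerivAt.comp_hasDerivAt x hx
    refine (h1.fun_mul (hasDerivAt_bst' x).ofReal_comp).congr_deriv ?_
    simp only [hg]; push_cast; ring
  obtain ⟨B, hB⟩ : ∃ B, ∀ x, ‖f x‖ ≤ B :=
    ⟨_, fun x => by
      have := hf.bounded x
      rw [Complex.normSq_eq_norm_sq] at this
      exact Real.abs_le_sqrt this |> (fun h => (le_abs_self _).trans h)⟩
  have hlim : ∀ {l : Filter ℝ}, Tendsto sech l (𝓝 0) → Tendsto G l (𝓝 0) := by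
    intro l hl
    refine squeeze_zero_norm (a := fun x => B * |bst' x|) (fun x => ?_) ?_
    · simp only [hG, norm_mul, norm_star, Complex.norm_real, Real.norm_eq_abs]
      exact mul_le_mul_of_nonneg_right (hB x) (abs_nonneg _)
    · simpa using (bst_tendsto hl).abs.const_mul B
  have hint : ∀ b : ℝ, ∫ x in (-b)..b, g x = G b - G (-b) := fun b =>
    integral_acc ((hf.acc _ _).star.mul (hbac _ _)) hd hgi.intervalIntegrable
  have h1 := intervalIntegral_tendsto_integral hgi tendsto_neg_atTop_atBot (tendsto_id (α := ℝ))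
  have h2 : Tendsto (fun b => ∫ x in (-b)..b, g x) atTop (𝓝 0) := by
    simp only [hint]
    have := (hlim sech_tendsto_atTop).sub ((hlim sech_tendsto_atBot).comp tendsto_neg_atTop_atBot)
    simpa using this
  have h0 := tendsto_nhds_unique h1 h2
  simp only [hg] at h0
  have i4 : Integrable (fun x => star (f x) * (bst x : ℂ) * ((1 / 4 : ℝ) : ℂ)) := i3.mul_const _
  have i5 : Integrable (fun x => star (f x) * (bst x : ℂ) * ((1 / 4 : ℝ) : ℂ)
      - star (f x) * ((3 / 4 * sech x ^ 2 : ℝ) : ℂ) * (bst x : ℂ)) := i4.sub i2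
  rw [integral_add i1 i5, integral_sub i4 i2, integral_mul_const] at h0
  push_cast at h0 ⊢
  linear_combination h0

/-- The soliton potential in the first component. -/
def solW (k : ℕ) (x : ℝ) : Matrix (Fin (k + 1)) (Fin (k + 1)) ℂ :=
  diagonal fun a => ((if a = 0 then 3 / 4 * sech x ^ 2 else 0 : ℝ) : ℂ)

theorem solW_trPow (k : ℕ) (x : ℝ) :
    trPow (3 / 2) (solW k x) = 3 * Real.sqrt 3 / 8 * sech x ^ 3 := by
  rw [solW, trPow_diagonal, Finset.sum_eq_single 0]
  · rw [if_pos rfl, Real.mul_rpow (by norm_num) (by positivity)]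
    congr 1
    · rw [show (3 / 4 : ℝ) = (Real.sqrt 3 / 2) ^ (2 : ℕ) by
        rw [div_pow, Real.sq_sqrt (by norm_num)]; norm_num,
        ← Real.rpow_natCast_mul (by positivity), show ((2 : ℕ) : ℝ) * (3 / 2) = (3 : ℕ) by norm_num,
        Real.rpow_natCast, div_pow]
      have : Real.sqrt 3 ^ 3 = 3 * Real.sqrt 3 := by
        rw [pow_succ, Real.sq_sqrt (by norm_num)]
      rw [this]; norm_num
    · rw [← Real.rpow_natCast_mul (sech_pos x).le, show ((2 : ℕ) : ℝ) * (3 / 2) = (3 : ℕ) by norm_num,
        Real.rpow_natCast]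
  · intro a _ ha
    rw [if_neg ha, Real.zero_rpow (by norm_num)]
  · simp

theorem attained (k : ℕ) : ltConst ∈ ratios (k + 1) := by
  have hI : ∫ x, trPow (3 / 2) (solW k x) = 3 * Real.sqrt 3 / 8 * (Real.pi / 2) := by
    simp only [solW_trPow]
    rw [integral_const_mul, integral_sech_cube]
  set ψ : Fin 1 → ℝ → Fin (k + 1) → ℂ := fun _ x a => if a = 0 then (bst x : ℂ) else 0 with hψ
  set ψ' : Fin 1 → ℝ → Fin (k + 1) → ℂ := fun _ x a => if a = 0 then (bst' x : ℂ) else 0 with hψ'
  refine ⟨solW k, ⟨fun a b => ?_, fun x => ?_, ?_⟩, ?_, 1, fun _ => -1 / 4, ψ, ψ',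
    ⟨fun n a => ?_, fun n q => ?_, fun n => ⟨by norm_num, fun φ φ' hφ => ?_⟩⟩, ?_⟩
  · simp only [solW, diagonal_apply]
    by_cases hab : a = b
    · simp only [hab, if_true]
      by_cases hb : b = 0
      · simp only [hb, if_true]
        exact (Complex.continuous_ofReal.comp
          (continuous_const.mul (sech_continuous.pow 2))).measurable
      · simp only [hb, if_false]; exact measurable_const
    · simp only [hab, if_false]; exact measurable_const
  · refine Matrix.PosSemidef.diagonal fun a => ?_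
    simp only [Pi.zero_apply]
    rw [Complex.zero_le_real]
    split_ifs <;> positivity
  · simp only [solW_trPow]
    exact sech_cube_integrable.const_mul _
  · rw [hI]; positivity
  · by_cases ha : a = 0
    · simp only [hψ, hψ', ha, if_true]; exact bst_h1
    · simp only [hψ, hψ', ha, if_false]
      exact ⟨MemLp.zero, MemLp.zero, fun u v => by simp⟩
  · rw [if_pos (Subsingleton.elim n q), inner2]
    have e : ∀ x, ∑ a, star (ψ n x a) * ψ q x a = ((sech x / Real.pi : ℝ) : ℂ) := by
      intro x
      rw [Finset.sum_eq_single 0]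
      · simp only [hψ, if_true]
        rw [Complex.star_def, Complex.conj_ofReal, ← Complex.ofReal_mul, ← sq, bst_sq]
      · intro a _ ha; simp [hψ, ha]
      · simp
    simp only [e]
    rw [integral_complex_ofReal, integral_div, integral_sech, div_self Real.pi_ne_zero,
      Complex.ofReal_one]
  · have hz := hφ 0
    obtain ⟨-, -, h3⟩ := bst_weak (f := fun x => φ x 0) (f' := fun x => φ' x 0) hz
    rw [form, inner2, inner2]
    have a1 : ∀ x, ∑ a, star (φ' x a) * ψ' n x a = star (φ' x 0) * (bst' x : ℂ) := by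
      intro x
      rw [Finset.sum_eq_single 0 (fun a _ ha => by simp [hψ', ha]) (by simp)]
      simp [hψ']
    have a2 : ∀ x, ∑ a, ∑ b, star (φ x a) * solW k x a b * ψ n x b
        = star (φ x 0) * ((3 / 4 * sech x ^ 2 : ℝ) : ℂ) * (bst x : ℂ) := by
      intro x
      rw [Finset.sum_eq_single 0, Finset.sum_eq_single 0]
      · simp [hψ, solW]
      · intro b _ hb; simp [hψ, hb]
      · simp
      · intro a _ ha
        refine Finset.sum_eq_zero fun b _ => ?_
        by_cases hb : b = 0
        · subst hb; simp [solW, diagonal_apply, ha]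
        · simp [hψ, hb]
      · simp
    have a3 : ∀ x, ∑ a, star (φ x a) * ψ n x a = star (φ x 0) * (bst x : ℂ) := by
      intro x
      rw [Finset.sum_eq_single 0 (fun a _ ha => by simp [hψ, ha]) (by simp)]
      simp [hψ]
    simp only [a1, a2, a3]
    exact h3
  · rw [hI, Fin.sum_univ_one, ltConst, show |(-1 / 4 : ℝ)| = 1 / 4 by norm_num]
    field_simp
    nlinarith [Real.mul_self_sqrt (show (0 : ℝ) ≤ 3 by norm_num)]

end

end Vale.Agent.P371.LT
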