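import Vale.Agent.P371.Pointwise
import Mathlib.MeasureTheory.Integral.IntervalIntegral.AbsolutelyContinuousFun
import Mathlib.MeasureTheory.Integral.IntervalIntegral.LebesgueDifferentiationThm
import Mathlib.MeasureTheory.Function.L2Space
import Mathlib.MeasureTheory.Integral.IntegralEqImproper
import Mathlib.MeasureTheory.Integral.Prod

/-! # Calculus for `H¹(ℝ)` functions -/

namespace Vale.Agent.P371

open MeasureTheory Filter Topology Matrix

noncomputable section

/-- `(f, f')` is a function of `H¹(ℝ)` with its weak derivative, in the continuous representative. -/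
def IsH1 (f f' : ℝ → ℂ) : Prop :=
  MemLp f 2 volume ∧ MemLp f' 2 volume ∧ ∀ a b : ℝ, f b - f a = ∫ x in a..b, f' x

theorem IsH1.locInt {f f' : ℝ → ℂ} (h : IsH1 f f') : LocallyIntegrable f' volume :=
  h.2.1.locallyIntegrable (by norm_num)

theorem IsH1.intInt {f f' : ℝ → ℂ} (h : IsH1 f f') (a b : ℝ) :
    IntervalIntegrable f' volume a b :=
  intervalIntegrable_iff.mpr ((h.locInt.integrableOn_isCompact isCompact_uIcc).mono_set
    Set.uIoc_subset_uIcc)

theorem IsH1.eq_prim {f f' : ℝ → ℂ} (h : IsH1 f f') :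
    f = fun x => f 0 + ∫ t in (0 : ℝ)..x, f' t := by
  funext x
  rw [← h.2.2 0 x]; ring

theorem IsH1.continuous {f f' : ℝ → ℂ} (h : IsH1 f f') : Continuous f := by
  rw [h.eq_prim]
  exact continuous_const.add (intervalIntegral.continuous_primitive (fun a b => h.intInt a b) 0)

theorem IsH1.ae_deriv {f f' : ℝ → ℂ} (h : IsH1 f f') : ∀ᵐ x, HasDerivAt f (f' x) x := by
  filter_upwards [LocallyIntegrable.ae_hasDerivAt_integral h.locInt] with x hx
  have e := h.eq_prim
  rw [e]
  exact ((hx 0).const_add _).congr_deriv rfl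

/-- Absolute continuity of both parts of a complex function. -/
def ACc (f : ℝ → ℂ) (a b : ℝ) : Prop :=
  AbsolutelyContinuousOnInterval (fun x => (f x).re) a b ∧
    AbsolutelyContinuousOnInterval (fun x => (f x).im) a b

theorem ac_const (c a b : ℝ) : AbsolutelyContinuousOnInterval (fun _ => c) a b :=
  (LipschitzWith.const c).lipschitzOnWith.absolutelyContinuousOnInterval

theorem ac_sum {κ : Type*} (s : Finset κ) (f : κ → ℝ → ℝ) (a b : ℝ)
    (h : ∀ k ∈ s, AbsolutelyContinuousOnInterval (f k) a b) :
    AbsolutelyContinuousOnInterval (fun x => ∑ k ∈ s, f k x) a b := by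
  classical
  induction s using Finset.induction_on with
  | empty => simpa using ac_const 0 a b
  | insert k s hk ih =>
    simp only [Finset.sum_insert hk]
    exact (h k (Finset.mem_insert_self k s)).add (ih fun q hq => h q (Finset.mem_insert_of_mem hq))

theorem ACc.const (c : ℂ) (a b : ℝ) : ACc (fun _ => c) a b := ⟨ac_const _ a b, ac_const _ a b⟩

theorem ACc.add {f g : ℝ → ℂ} {a b : ℝ} (hf : ACc f a b) (hg : ACc g a b) :
    ACc (fun x => f x + g x) a b := by
  constructor
  · simp only [Complex.add_re]; exact hf.1.add hg.1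
  · simp only [Complex.add_im]; exact hf.2.add hg.2

theorem ACc.mul {f g : ℝ → ℂ} {a b : ℝ} (hf : ACc f a b) (hg : ACc g a b) :
    ACc (fun x => f x * g x) a b := by
  constructor
  · simp only [Complex.mul_re]; exact (hf.1.mul hg.1).sub (hf.2.mul hg.2)
  · simp only [Complex.mul_im]; exact (hf.1.mul hg.2).add (hf.2.mul hg.1)

theorem ACc.star {f : ℝ → ℂ} {a b : ℝ} (hf : ACc f a b) : ACc (fun x => star (f x)) a b := by
  constructor
  · simp only [Complex.star_def, Complex.conj_re]; exact hf.1
  · simp only [Complex.star_def, Complex.conj_im]; exact hf.2.neg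

theorem ACc.sum {κ : Type*} (s : Finset κ) (f : κ → ℝ → ℂ) (a b : ℝ)
    (h : ∀ k ∈ s, ACc (f k) a b) : ACc (fun x => ∑ k ∈ s, f k x) a b := by
  constructor
  · simp only [Complex.re_sum]; exact ac_sum s _ a b fun k hk => (h k hk).1
  · simp only [Complex.im_sum]; exact ac_sum s _ a b fun k hk => (h k hk).2

theorem ACc.prim {g : ℝ → ℂ} (hg : ∀ a b : ℝ, IntervalIntegrable g volume a b) (c₀ : ℂ) (a b : ℝ) :
    ACc (fun x => c₀ + ∫ t in (0 : ℝ)..x, g t) a b := by
  have hI : ∀ (L : ℂ →L[ℝ] ℝ) (x : ℝ),
      L (c₀ + ∫ t in (0 : ℝ)..x, g t) = (L (c₀ + ∫ t in (0 : ℝ)..a, g t))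
        + ∫ t in a..x, L (g t) := by
    intro L x
    rw [L.intervalIntegral_comp_comm (hg a x), ← map_add, add_assoc,
      intervalIntegral.integral_add_adjacent_intervals (hg 0 a) (hg a x)]
  have hAC : ∀ L : ℂ →L[ℝ] ℝ,
      AbsolutelyContinuousOnInterval (fun x => L (c₀ + ∫ t in (0 : ℝ)..x, g t)) a b := by
    intro L
    have hi : IntervalIntegrable (fun t => L (g t)) volume a b :=
      intervalIntegrable_iff.mpr (L.integrable_comp (intervalIntegrable_iff.mp (hg a b)))
    have e : (fun x => L (c₀ + ∫ t in (0 : ℝ)..x, g t))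
        = fun x => (L (c₀ + ∫ t in (0 : ℝ)..a, g t)) + ∫ t in a..x, L (g t) := funext (hI L)
    rw [e]
    exact (ac_const _ a b).add
      (hi.absolutelyContinuousOnInterval_intervalIntegral (c := a) (by simp))
  exact ⟨hAC Complex.reCLM, hAC Complex.imCLM⟩

theorem IsH1.acc {f f' : ℝ → ℂ} (h : IsH1 f f') (a b : ℝ) : ACc f a b := by
  rw [h.eq_prim]
  exact ACc.prim h.intInt _ a b

theorem IsH1.normSq_integrable {f f' : ℝ → ℂ} (h : IsH1 f f') :
    Integrable (fun x => Complex.normSq (f x)) ∧ Integrable (fun x => Complex.normSq (f' x)) := by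
  have e : ∀ g : ℝ → ℂ, MemLp g 2 volume → Integrable (fun x => Complex.normSq (g x)) := by
    intro g hg
    have := (memLp_two_iff_integrable_sq_norm hg.1).mp hg
    exact this.congr (Eventually.of_forall fun x => (Complex.normSq_eq_norm_sq _).symm)
  exact ⟨e f h.1, e f' h.2.1⟩

theorem IsH1.bounded {f f' : ℝ → ℂ} (h : IsH1 f f') :
    ∀ x, Complex.normSq (f x) ≤ Complex.normSq (f 0)
      + ((∫ t, Complex.normSq (f t)) + ∫ t, Complex.normSq (f' t)) := by
  intro x
  have hF : AbsolutelyContinuousOnInterval (fun t => Complex.normSq (f t)) 0 x := by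
    simp only [Complex.normSq_apply]
    exact ((h.acc 0 x).1.mul (h.acc 0 x).1).add ((h.acc 0 x).2.mul (h.acc 0 x).2)
  have hI := hF.integral_deriv_eq_sub
  have hb : ∀ᵐ t, ‖deriv (fun t => Complex.normSq (f t)) t‖
      ≤ Complex.normSq (f t) + Complex.normSq (f' t) := by
    filter_upwards [h.ae_deriv] with t ht
    have hre := Complex.reCLM.hasFDerivAt.comp_hasDerivAt t ht
    have him := Complex.imCLM.hasFDerivAt.comp_hasDerivAt t ht
    have hd : HasDerivAt (fun t => Complex.normSq (f t))
        ((f' t).re * (f t).re + (f t).re * (f' t).re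
          + ((f' t).im * (f t).im + (f t).im * (f' t).im)) t := by
      simp only [Complex.normSq_apply]
      exact (hre.mul hre).add (him.mul him)
    rw [hd.deriv, Real.norm_eq_abs, Complex.normSq_apply, Complex.normSq_apply, abs_le]
    constructor <;>
      nlinarith [sq_nonneg ((f t).re - (f' t).re), sq_nonneg ((f t).re + (f' t).re),
        sq_nonneg ((f t).im - (f' t).im), sq_nonneg ((f t).im + (f' t).im)]
  have hint := h.normSq_integrable.1.add h.normSq_integrable.2
  have h2 : ‖∫ t in (0 : ℝ)..x, deriv (fun t => Complex.normSq (f t)) t‖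
      ≤ (∫ t, Complex.normSq (f t)) + ∫ t, Complex.normSq (f' t) := by
    rw [intervalIntegral.norm_intervalIntegral_eq]
    refine (norm_integral_le_integral_norm _).trans ?_
    rw [← integral_add h.normSq_integrable.1 h.normSq_integrable.2]
    refine le_trans (integral_mono_of_nonneg (Eventually.of_forall fun t => norm_nonneg _)
      hint.integrableOn (ae_restrict_of_ae hb)) ?_
    exact setIntegral_le_integral hint
      (Eventually.of_forall fun t => add_nonneg (Complex.normSq_nonneg _) (Complex.normSq_nonneg _))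
  rw [hI, Real.norm_eq_abs, abs_le] at h2
  linarith [h2.1, h2.2]

theorem exists_small {g : ℝ → ℝ} (hg : Integrable g) {η : ℝ} (hη : 0 < η)
    (B : ℝ) : ∃ b > B, g b + g (-b) < η := by
  by_contra hcon
  push Not at hcon
  have hint : IntegrableOn (fun b => g b + g (-b)) (Set.Ioi B) := (hg.add hg.comp_neg).integrableOn
  have : IntegrableOn (fun _ : ℝ => η) (Set.Ioi B) := by
    refine Integrable.mono' hint aestronglyMeasurable_const ?_
    filter_upwards [ae_restrict_mem measurableSet_Ioi] with b hb
    rw [Real.norm_eq_abs, abs_of_pos hη]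
    exact hcon b hb
  rw [integrableOn_const_iff] at this
  · rcases this with h | h
    · exact hη.ne' (by simpa using h)
    · simp at h

end

end Vale.Agent.P371
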