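import Mathlib.Analysis.Matrix.Spectrum
import Mathlib.MeasureTheory.Function.LpSeminorm.Basic
import Mathlib.MeasureTheory.Integral.IntervalIntegral.Basic
import Mathlib.MeasureTheory.Measure.Lebesgue.Basic
import Mathlib.Analysis.SpecialFunctions.Pow.Real
import Mathlib.LinearAlgebra.Matrix.PosDef

/-! # The Lieb–Thirring constant for `γ = 1` on the line, matrix potentials -/

namespace Vale.Agent.P371.LT

open MeasureTheory Matrix
open scoped ComplexOrder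

noncomputable section

/-- `tr (A ^ p)` by functional calculus: the sum of the `p`-th powers of the eigenvalues. -/
def trPow {m : ℕ} (p : ℝ) (A : Matrix (Fin m) (Fin m) ℂ) : ℝ :=
  if h : A.IsHermitian then ∑ i, h.eigenvalues i ^ p else 0

/-- A potential for `γ = 1`: measurable, positive semidefinite at each point, `∫ tr W^(3/2) < ∞`. -/
def IsPotential {m : ℕ} (W : ℝ → Matrix (Fin m) (Fin m) ℂ) : Prop :=
  (∀ a b, Measurable fun x => W x a b) ∧ (∀ x, (W x).PosSemidef) ∧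
    Integrable (fun x => trPow (3 / 2) (W x))

/-- `ψ ∈ H¹(ℝ; ℂ^m)` (continuous representative) with weak derivative `ψ'`. -/
def MemH1 {m : ℕ} (ψ ψ' : ℝ → Fin m → ℂ) : Prop :=
  ∀ a, MemLp (fun x => ψ x a) 2 volume ∧ MemLp (fun x => ψ' x a) 2 volume ∧
    ∀ u v : ℝ, ψ v a - ψ u a = ∫ x in u..v, ψ' x a

/-- The inner product of `L²(ℝ; ℂ^m)`. -/
def inner2 {m : ℕ} (φ ψ : ℝ → Fin m → ℂ) : ℂ :=
  ∫ x, ∑ a, star (φ x a) * ψ x a

/-- The sesquilinear form of `H_W = -d²/dx² - W`. -/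
def form {m : ℕ} (W : ℝ → Matrix (Fin m) (Fin m) ℂ) (φ φ' ψ ψ' : ℝ → Fin m → ℂ) : ℂ :=
  inner2 φ' ψ' - ∫ x, ∑ a, ∑ b, star (φ x a) * W x a b * ψ x b

/-- `N` orthonormal eigenfunctions of `H_W` with negative eigenvalues `E`. -/
def IsBoundStates {m N : ℕ} (W : ℝ → Matrix (Fin m) (Fin m) ℂ) (E : Fin N → ℝ)
    (ψ ψ' : Fin N → ℝ → Fin m → ℂ) : Prop :=
  (∀ n, MemH1 (ψ n) (ψ' n)) ∧
  (∀ n k, inner2 (ψ n) (ψ k) = if n = k then 1 else 0) ∧
  ∀ n, E n < 0 ∧ ∀ φ φ', MemH1 φ φ' →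
    form W φ φ' (ψ n) (ψ' n) = (E n : ℂ) * inner2 φ (ψ n)

/-- The quotients whose supremum is `L₁(m)`. -/
def ratios (m : ℕ) : Set ℝ :=
  {r | ∃ W : ℝ → Matrix (Fin m) (Fin m) ℂ, IsPotential W ∧ 0 < ∫ x, trPow (3 / 2) (W x) ∧
    ∃ (N : ℕ) (E : Fin N → ℝ) (ψ ψ' : Fin N → ℝ → Fin m → ℂ), IsBoundStates W E ψ ψ' ∧
      r = (∑ n, |E n|) / ∫ x, trPow (3 / 2) (W x)}

end

end Vale.Agent.P371.LT
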