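import Vale.Agent.P371.Algebra
import Mathlib.Topology.ContinuousMap.Weierstrass
import Mathlib.Analysis.Calculus.Deriv.Mul
import Mathlib.Analysis.Calculus.Deriv.Star
import Mathlib.Analysis.SpecialFunctions.Trigonometric.Deriv
import Mathlib.Algebra.Polynomial.Eval.Degree

/-! # The derivative of the null Lagrangian -/

namespace Vale.Agent.P371

open Filter Topology Matrix
open scoped ComplexOrder

noncomputable section

variable {ι γ : Type} [Fintype ι] [DecidableEq ι] [Fintype γ]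

/-- The iterate `Z ↦ A Z + Z A`. -/
def lPow (A Z : Matrix ι ι ℂ) : ℕ → Matrix ι ι ℂ
  | 0 => Z
  | l + 1 => A * lPow A Z l + lPow A Z l * A

/-- The derivative of `lPow`. -/
def lPowD (A A' Z Z' : Matrix ι ι ℂ) : ℕ → Matrix ι ι ℂ
  | 0 => Z'
  | l + 1 => (A' * lPow A Z l + A * lPowD A A' Z Z' l)
      + (lPowD A A' Z Z' l * A + lPow A Z l * A')

/-- Entrywise differentiability. -/
def MDeriv {α β : Type} (F : ℝ → Matrix α β ℂ) (F' : Matrix α β ℂ) (x : ℝ) : Prop :=
  ∀ i j, HasDerivAt (fun t => F t i j) (F' i j) x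

theorem MDeriv.mul {α β δ : Type} [Fintype β] {F : ℝ → Matrix α β ℂ} {G : ℝ → Matrix β δ ℂ}
    {F' : Matrix α β ℂ} {G' : Matrix β δ ℂ} {x : ℝ} (hF : MDeriv F F' x) (hG : MDeriv G G' x) :
    MDeriv (fun t => F t * G t) (F' * G x + F x * G') x := by
  intro i j
  simp only [Matrix.mul_apply, Matrix.add_apply, ← Finset.sum_add_distrib]
  exact HasDerivAt.fun_sum fun k _ => (hF i k).fun_mul (hG k j)

theorem MDeriv.add {α β : Type} {F G : ℝ → Matrix α β ℂ} {F' G' : Matrix α β ℂ} {x : ℝ}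
    (hF : MDeriv F F' x) (hG : MDeriv G G' x) : MDeriv (fun t => F t + G t) (F' + G') x :=
  fun i j => (hF i j).fun_add (hG i j)

theorem MDeriv.conjTranspose {α β : Type} {F : ℝ → Matrix α β ℂ} {F' : Matrix α β ℂ} {x : ℝ}
    (hF : MDeriv F F' x) : MDeriv (fun t => (F t)ᴴ) F'ᴴ x := by
  intro i j
  exact Complex.conjCLE.toContinuousLinearMap.hasFDerivAt.comp_hasDerivAt x (hF j i)

theorem MDeriv.lPow {A Z : ℝ → Matrix ι ι ℂ} {A' Z' : Matrix ι ι ℂ} {x : ℝ}
    (hA : MDeriv A A' x) (hZ : MDeriv Z Z' x) :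
    ∀ l, MDeriv (fun t => lPow (A t) (Z t) l) (lPowD (A x) A' (Z x) Z' l) x
  | 0 => hZ
  | l + 1 => (hA.mul (MDeriv.lPow hA hZ l)).add ((MDeriv.lPow hA hZ l).mul hA)

/-- A polynomial given by its first `D` coefficients. -/
def pev (D : ℕ) (c : ℕ → ℝ) (u : ℝ) : ℝ := ∑ l ∈ Finset.range D, c l * u ^ l

/-- The quadratic functional `Re tr (p(L_A) Z · Z)`. -/
def qFun (D : ℕ) (c : ℕ → ℝ) (A Z : Matrix ι ι ℂ) : ℝ :=
  ∑ l ∈ Finset.range D, c l * ((lPow A Z l * Z).trace).re

/-- The derivative of `qFun`. -/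
def qFunD (D : ℕ) (c : ℕ → ℝ) (A A' Z Z' : Matrix ι ι ℂ) : ℝ :=
  ∑ l ∈ Finset.range D, c l * ((lPowD A A' Z Z' l * Z + lPow A Z l * Z').trace).re

theorem hasDerivAt_qFun {A Z : ℝ → Matrix ι ι ℂ} {A' Z' : Matrix ι ι ℂ} {x : ℝ}
    (hA : MDeriv A A' x) (hZ : MDeriv Z Z' x) (D : ℕ) (c : ℕ → ℝ) :
    HasDerivAt (fun t => qFun D c (A t) (Z t)) (qFunD D c (A x) A' (Z x) Z') x := by
  refine HasDerivAt.fun_sum fun l _ => HasDerivAt.const_mul _ ?_
  have h := (hA.lPow hZ l).mul hZ
  have ht : HasDerivAt (fun t => (lPow (A t) (Z t) l * Z t).trace)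
      ((lPowD (A x) A' (Z x) Z' l * Z x + lPow (A x) (Z x) l * Z').trace) x :=
    HasDerivAt.fun_sum fun i _ => h i i
  exact Complex.reCLM.hasFDerivAt.comp_hasDerivAt x ht

/-- Conjugation by `U`. -/
def conjU (U X : Matrix ι ι ℂ) : Matrix ι ι ℂ := U * X * star U

theorem conjU_mul {U : Matrix ι ι ℂ} (hU : star U * U = 1) (X X' : Matrix ι ι ℂ) :
    conjU U X * conjU U X' = conjU U (X * X') := by
  unfold conjU
  rw [show U * X * star U * (U * X' * star U) = U * X * (star U * U) * X' * star U by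
    simp only [mul_assoc], hU, mul_one]
  simp only [mul_assoc]

theorem conjU_add (U X X' : Matrix ι ι ℂ) : conjU U X + conjU U X' = conjU U (X + X') := by
  simp [conjU, mul_add, add_mul]

theorem conjU_trace {U : Matrix ι ι ℂ} (hU : star U * U = 1) (X : Matrix ι ι ℂ) :
    (conjU U X).trace = X.trace := by
  rw [conjU, Matrix.trace_mul_comm, ← mul_assoc, hU, one_mul]

theorem lPow_conj {U : Matrix ι ι ℂ} (hU : star U * U = 1) (A Z : Matrix ι ι ℂ) :
    ∀ l, lPow (conjU U A) (conjU U Z) l = conjU U (lPow A Z l)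
  | 0 => rfl
  | l + 1 => by simp only [lPow, lPow_conj hU A Z l, conjU_mul hU, conjU_add]

theorem lPowD_conj {U : Matrix ι ι ℂ} (hU : star U * U = 1) (A A' Z Z' : Matrix ι ι ℂ) :
    ∀ l, lPowD (conjU U A) (conjU U A') (conjU U Z) (conjU U Z') l = conjU U (lPowD A A' Z Z' l)
  | 0 => rfl
  | l + 1 => by
      simp only [lPowD, lPowD_conj hU A A' Z Z' l, lPow_conj hU, conjU_mul hU, conjU_add]

theorem qFun_conj {U : Matrix ι ι ℂ} (hU : star U * U = 1) (D : ℕ) (c : ℕ → ℝ)
    (A Z : Matrix ι ι ℂ) : qFun D c (conjU U A) (conjU U Z) = qFun D c A Z := by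
  simp only [qFun, lPow_conj hU, conjU_mul hU, conjU_trace hU]

theorem qFunD_conj {U : Matrix ι ι ℂ} (hU : star U * U = 1) (D : ℕ) (c : ℕ → ℝ)
    (A A' Z Z' : Matrix ι ι ℂ) :
    qFunD D c (conjU U A) (conjU U A') (conjU U Z) (conjU U Z') = qFunD D c A A' Z Z' := by
  simp only [qFunD, lPow_conj hU, lPowD_conj hU, conjU_mul hU, conjU_add, conjU_trace hU]

/-- The diagonal matrix of a real vector. -/
def dg (a : ι → ℝ) : Matrix ι ι ℂ := diagonal fun i => (a i : ℂ)

theorem lPow_diag (a : ι → ℝ) (P : Matrix ι ι ℂ) :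
    ∀ l i j, lPow (dg a) P l i j = ((a i + a j : ℝ) : ℂ) ^ l * P i j
  | 0, i, j => by simp [lPow]
  | l + 1, i, j => by
      simp only [lPow, dg, Matrix.add_apply, diagonal_mul, mul_diagonal]
      have h := lPow_diag a P l i j
      simp only [dg] at h
      rw [h]; push_cast; ring

/-- `(u^l - v^l)/(u - v)`. -/
def qdd : ℕ → ℝ → ℝ → ℝ
  | 0, _, _ => 0
  | l + 1, u, v => u ^ l + v * qdd l u v

theorem qdd_mul (u v : ℝ) : ∀ l, qdd l u v * (u - v) = u ^ l - v ^ l
  | 0 => by simp [qdd]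
  | l + 1 => by
      have h := qdd_mul u v l
      simp only [qdd, add_mul, mul_assoc, h]
      ring

theorem qdd_self (u : ℝ) : ∀ l, qdd l u u = l * u ^ (l - 1)
  | 0 => by simp [qdd]
  | l + 1 => by
      rw [qdd, qdd_self u l]
      rcases l with _ | k
      · simp
      · simp only [Nat.add_sub_cancel]; push_cast; ring

/-- The divided difference of `pev`. -/
def pdd (D : ℕ) (c : ℕ → ℝ) (u v : ℝ) : ℝ := ∑ l ∈ Finset.range D, c l * qdd l u v

theorem pdd_mul (D : ℕ) (c : ℕ → ℝ) (u v : ℝ) :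
    pdd D c u v * (u - v) = pev D c u - pev D c v := by
  simp only [pdd, pev, Finset.sum_mul, ← Finset.sum_sub_distrib]
  exact Finset.sum_congr rfl fun l _ => by rw [mul_assoc, qdd_mul, mul_sub]

theorem hasDerivAt_pev (D : ℕ) (c : ℕ → ℝ) (u : ℝ) :
    HasDerivAt (pev D c) (pdd D c u u) u := by
  unfold pev pdd
  simp only [qdd_self]
  exact HasDerivAt.fun_sum fun l _ => (hasDerivAt_pow l u).const_mul (c l)

theorem lPowD_diag (a : ι → ℝ) (κ : ℝ) (P R : Matrix ι ι ℂ) :
    ∀ l i j, lPowD (dg a) ((κ : ℂ) • P) P R l i j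
      = (κ : ℂ) * (∑ k, P i k * P k j *
          ((qdd l (a k + a j) (a i + a j) + qdd l (a i + a k) (a i + a j) : ℝ) : ℂ))
        + ((a i + a j : ℝ) : ℂ) ^ l * R i j
  | 0, i, j => by simp [lPowD, qdd]
  | l + 1, i, j => by
      have h := lPowD_diag a κ P R l i j
      have e1 : (((κ : ℂ) • P) * lPow (dg a) P l) i j
          = (κ : ℂ) * ∑ k, P i k * P k j * ((a k + a j : ℝ) : ℂ) ^ l := by
        rw [Matrix.mul_apply, Finset.mul_sum]
        refine Finset.sum_congr rfl fun k _ => ?_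
        rw [Matrix.smul_apply, lPow_diag, smul_eq_mul]; ring
      have e2 : (lPow (dg a) P l * ((κ : ℂ) • P)) i j
          = (κ : ℂ) * ∑ k, P i k * P k j * ((a i + a k : ℝ) : ℂ) ^ l := by
        rw [Matrix.mul_apply, Finset.mul_sum]
        refine Finset.sum_congr rfl fun k _ => ?_
        rw [Matrix.smul_apply, lPow_diag, smul_eq_mul]; ring
      have e3 : (∑ k, P i k * P k j *
          ((qdd (l + 1) (a k + a j) (a i + a j) + qdd (l + 1) (a i + a k) (a i + a j) : ℝ) : ℂ))
          = (∑ k, P i k * P k j * ((a k + a j : ℝ) : ℂ) ^ l)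
            + (∑ k, P i k * P k j * ((a i + a k : ℝ) : ℂ) ^ l)
            + ((a i + a j : ℝ) : ℂ) * (∑ k, P i k * P k j *
              ((qdd l (a k + a j) (a i + a j) + qdd l (a i + a k) (a i + a j) : ℝ) : ℂ)) := by
        rw [Finset.mul_sum, ← Finset.sum_add_distrib, ← Finset.sum_add_distrib]
        refine Finset.sum_congr rfl fun k _ => ?_
        simp only [qdd]; push_cast; ring
      have e4 : (dg a * lPowD (dg a) ((κ : ℂ) • P) P R l) i j
          = (a i : ℂ) * lPowD (dg a) ((κ : ℂ) • P) P R l i j := by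
        rw [dg, diagonal_mul]
      have e5 : (lPowD (dg a) ((κ : ℂ) • P) P R l * dg a) i j
          = lPowD (dg a) ((κ : ℂ) • P) P R l i j * (a j : ℂ) := by
        rw [dg, mul_diagonal]
      simp only [lPowD, Matrix.add_apply, e1, e2, e4, e5, h, e3]
      push_cast
      ring

theorem gram_herm (V : Matrix ι γ ℂ) : (V * Vᴴ).IsHermitian :=
  Matrix.isHermitian_mul_conjTranspose_self V

/-- The matrix `p(αᵢ + αⱼ) Pᵢⱼ`. -/
def xMat (D : ℕ) (c : ℕ → ℝ) (a : ι → ℝ) (P : Matrix ι ι ℂ) : Matrix ι ι ℂ :=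
  Matrix.of fun i j => (pev D c (a i + a j) : ℂ) * P i j

theorem xMat_herm (D : ℕ) (c : ℕ → ℝ) (a : ι → ℝ) {P : Matrix ι ι ℂ} (hP : P.IsHermitian) :
    (xMat D c a P).IsHermitian := by
  ext i j
  simp only [conjTranspose_apply, xMat, Matrix.of_apply, star_mul', Complex.star_def,
    Complex.conj_ofReal]
  rw [add_comm (a j), ← Complex.star_def, herm_entry hP]

theorem qFunD_diag (D : ℕ) (c : ℕ → ℝ) (a : ι → ℝ) (κ : ℝ) (V V' : Matrix ι γ ℂ) :
    qFunD D c (dg a) ((κ : ℂ) • (V * Vᴴ)) (V * Vᴴ) (V' * Vᴴ + V * V'ᴴ)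
      = 2 * κ * (∑ i, ∑ j, ∑ k, tri (V * Vᴴ) i j k * pdd D c (a i + a k) (a j + a k))
        + 4 * ∑ i, ∑ s, (star ((xMat D c a (V * Vᴴ) * V) i s) * V' i s).re := by
  set P := V * Vᴴ with hP'
  set R := V' * Vᴴ + V * V'ᴴ with hR'
  have hP : P.IsHermitian := gram_herm V
  have hR : R.IsHermitian := by
    rw [hR', IsHermitian, conjTranspose_add, conjTranspose_mul, conjTranspose_mul,
      conjTranspose_conjTranspose, conjTranspose_conjTranspose, add_comm]
  set X := xMat D c a P with hX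
  have hX' : X.IsHermitian := xMat_herm D c a hP
  have eC : qFunD D c (dg a) ((κ : ℂ) • P) P R
      = κ * (∑ i, ∑ j, ∑ k, tri P i k j * (pdd D c (a k + a j) (a i + a j)
          + pdd D c (a i + a k) (a i + a j)))
        + ∑ i, ∑ j, pev D c (a i + a j) * (R i j * P j i + P i j * R j i).re := by
    unfold qFunD
    have e : ∀ l, ((lPowD (dg a) ((κ : ℂ) • P) P R l * P + lPow (dg a) P l * R).trace).re
        = κ * (∑ i, ∑ j, ∑ k, tri P i k j * (qdd l (a k + a j) (a i + a j)
            + qdd l (a i + a k) (a i + a j)))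
          + ∑ i, ∑ j, (a i + a j) ^ l * (R i j * P j i + P i j * R j i).re := by
      intro l
      rw [Matrix.trace, Complex.re_sum, Finset.mul_sum, ← Finset.sum_add_distrib]
      refine Finset.sum_congr rfl fun i _ => ?_
      rw [Matrix.diag, Matrix.add_apply, Matrix.mul_apply, Matrix.mul_apply,
        ← Finset.sum_add_distrib, Complex.re_sum, Finset.mul_sum, ← Finset.sum_add_distrib]
      refine Finset.sum_congr rfl fun j _ => ?_
      rw [lPowD_diag, lPow_diag, ← Complex.ofReal_pow,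
        show ((κ : ℂ) * (∑ k, P i k * P k j *
              ((qdd l (a k + a j) (a i + a j) + qdd l (a i + a k) (a i + a j) : ℝ) : ℂ))
            + (((a i + a j) ^ l : ℝ) : ℂ) * R i j) * P j i + (((a i + a j) ^ l : ℝ) : ℂ) * P i j * R j i
          = (κ : ℂ) * ((∑ k, P i k * P k j *
              ((qdd l (a k + a j) (a i + a j) + qdd l (a i + a k) (a i + a j) : ℝ) : ℂ)) * P j i)
            + (((a i + a j) ^ l : ℝ) : ℂ) * (R i j * P j i + P i j * R j i) by ring,
        Complex.add_re, Complex.re_ofReal_mul, Complex.re_ofReal_mul, Finset.sum_mul, Complex.re_sum]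
      congr 2
      refine Finset.sum_congr rfl fun k _ => ?_
      rw [mul_right_comm, Complex.re_mul_ofReal]; rfl
    simp only [e, mul_add (c _), Finset.sum_add_distrib]
    congr 1
    · simp only [pdd, ← Finset.sum_add_distrib, ← mul_add, Finset.mul_sum]
      rw [Finset.sum_comm]
      refine Finset.sum_congr rfl fun i _ => ?_
      rw [Finset.sum_comm]
      refine Finset.sum_congr rfl fun j _ => ?_
      rw [Finset.sum_comm]
      refine Finset.sum_congr rfl fun k _ => Finset.sum_congr rfl fun l _ => ?_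
      ring
    · simp only [pev, Finset.mul_sum, Finset.sum_mul]
      rw [Finset.sum_comm]
      refine Finset.sum_congr rfl fun i _ => ?_
      rw [Finset.sum_comm]
      refine Finset.sum_congr rfl fun j _ => Finset.sum_congr rfl fun l _ => ?_
      ring
  rw [eC]
  congr 1
  · have p1 : ∑ i, ∑ j, ∑ k, tri P i k j * pdd D c (a k + a j) (a i + a j)
        = ∑ i, ∑ j, ∑ k, tri P i j k * pdd D c (a i + a k) (a j + a k) := by
      rw [Finset.sum_congr rfl fun i (_ : i ∈ Finset.univ) => Finset.sum_comm, sum3_swap]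
      refine Finset.sum_congr rfl fun i _ => Finset.sum_congr rfl fun j _ =>
        Finset.sum_congr rfl fun k _ => ?_
      rw [tri_swap hP]
    have p2 : ∑ i, ∑ j, ∑ k, tri P i k j * pdd D c (a i + a k) (a i + a j)
        = ∑ i, ∑ j, ∑ k, tri P i j k * pdd D c (a i + a k) (a j + a k) := by
      rw [sum3_cycle, sum3_swap]
      refine Finset.sum_congr rfl fun i _ => Finset.sum_congr rfl fun j _ =>
        Finset.sum_congr rfl fun k _ => ?_
      rw [tri_cycle P i j k, add_comm (a k) (a j), add_comm (a k) (a i)]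
    simp only [mul_add, Finset.sum_add_distrib, p1, p2]
    ring
  · have q1 : ∑ i, ∑ j, pev D c (a i + a j) * (R i j * P j i + P i j * R j i).re
        = 2 * ((R * X).trace).re := by
      have : ∀ i j, (P i j * R j i).re = (R i j * P j i).re := fun i j => by
        rw [← Complex.conj_re (R i j * P j i), map_mul, ← Complex.star_def, herm_entry hR,
          herm_entry hP, mul_comm]
      simp only [Complex.add_re, this, Matrix.trace, Matrix.diag, Matrix.mul_apply, Complex.re_sum,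
        Finset.mul_sum]
      refine Finset.sum_congr rfl fun i _ => Finset.sum_congr rfl fun j _ => ?_
      rw [hX, xMat, Matrix.of_apply, add_comm (a j) (a i),
        mul_left_comm (R i j), Complex.re_ofReal_mul]
      ring
    have q2 : ((R * X).trace).re = 2 * ((V' * Vᴴ * X).trace).re := by
      rw [hR', add_mul, Matrix.trace_add, Complex.add_re]
      have : (V * V'ᴴ * X).trace = star ((V' * Vᴴ * X).trace) := by
        rw [← Matrix.trace_conjTranspose, conjTranspose_mul, conjTranspose_mul,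
          conjTranspose_conjTranspose, hX'.eq, Matrix.trace_mul_comm]
      rw [this, Complex.star_def, Complex.conj_re]
      ring
    have q3 : (V' * Vᴴ * X).trace = ∑ i, ∑ s, star ((X * V) i s) * V' i s := by
      rw [Matrix.mul_assoc, show Vᴴ * X = (X * V)ᴴ by rw [conjTranspose_mul, hX'.eq]]
      simp only [Matrix.trace, Matrix.diag, Matrix.mul_apply, conjTranspose_apply]
      exact Finset.sum_congr rfl fun i _ => Finset.sum_congr rfl fun s _ => mul_comm _ _
    rw [q1, q2, q3]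
    simp only [Complex.re_sum]
    ring

/-- The sum of squared moduli. -/
def frobSq {α β : Type} [Fintype α] [Fintype β] (M : Matrix α β ℂ) : ℝ :=
  ∑ i, ∑ s, Complex.normSq (M i s)

theorem frobSq_eq_trace {α β : Type} [Fintype α] [Fintype β] (M : Matrix α β ℂ) :
    frobSq M = ((M * Mᴴ).trace).re := by
  simp only [frobSq, Matrix.trace, Matrix.diag, Matrix.mul_apply, conjTranspose_apply,
    Complex.re_sum, Complex.star_def, Complex.mul_conj, Complex.ofReal_re]

theorem xMat_frob (D : ℕ) (c : ℕ → ℝ) (a : ι → ℝ) (V : Matrix ι γ ℂ) :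
    frobSq (xMat D c a (V * Vᴴ) * V) = ∑ i, ∑ j, ∑ k,
      tri (V * Vᴴ) i j k * (pev D c (a i + a j) * pev D c (a i + a k)) := by
  have hX := xMat_herm D c a (gram_herm V)
  set P := V * Vᴴ with hP'
  have e : (xMat D c a P * V) * (xMat D c a P * V)ᴴ = xMat D c a P * P * xMat D c a P := by
    rw [conjTranspose_mul, hX.eq, hP']
    simp only [Matrix.mul_assoc]
  rw [frobSq_eq_trace, e]
  simp only [Matrix.trace, Matrix.diag, Matrix.mul_apply, Finset.sum_mul, Complex.re_sum]
  refine Finset.sum_congr rfl fun i _ => ?_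
  rw [Finset.sum_comm]
  refine Finset.sum_congr rfl fun j _ => Finset.sum_congr rfl fun k _ => ?_
  simp only [xMat, Matrix.of_apply]
  rw [show ((pev D c (a i + a j) : ℂ) * P i j) * P j k * ((pev D c (a k + a i) : ℂ) * P k i)
    = (((pev D c (a i + a j) * pev D c (a i + a k) : ℝ)) : ℂ) * (P i j * P j k * P k i) by
      rw [add_comm (a k)]; push_cast; ring, Complex.re_ofReal_mul, tri]
  ring

/-- Completing the square. -/
theorem square_step (D : ℕ) (c : ℕ → ℝ) (a : ι → ℝ) (κ : ℝ) (V V' : Matrix ι γ ℂ) :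
    κ / 2 * qFunD D c (dg a) ((κ : ℂ) • (V * Vᴴ)) (V * Vᴴ) (V' * Vᴴ + V * V'ᴴ)
      + κ ^ 2 * ∑ i, ∑ j, ∑ k, tri (V * Vᴴ) i j k *
          (-pdd D c (a i + a k) (a j + a k) - pev D c (a i + a j) * pev D c (a i + a k))
      ≤ frobSq V' := by
  rw [qFunD_diag]
  set W := xMat D c a (V * Vᴴ) * V with hW
  have e : ∑ i, ∑ j, ∑ k, tri (V * Vᴴ) i j k *
          (-pdd D c (a i + a k) (a j + a k) - pev D c (a i + a j) * pev D c (a i + a k))
      = -(∑ i, ∑ j, ∑ k, tri (V * Vᴴ) i j k * pdd D c (a i + a k) (a j + a k)) - frobSq W := by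
    rw [hW, xMat_frob]
    simp only [mul_sub, mul_neg, Finset.sum_sub_distrib, Finset.sum_neg_distrib]
  rw [e]
  have key : ∀ i s, 2 * κ * (star (W i s) * V' i s).re - κ ^ 2 * Complex.normSq (W i s)
      ≤ Complex.normSq (V' i s) := by
    intro i s
    simp only [Complex.normSq_apply, Complex.star_def, Complex.mul_re, Complex.conj_re,
      Complex.conj_im]
    nlinarith [sq_nonneg ((V' i s).re - κ * (W i s).re), sq_nonneg ((V' i s).im - κ * (W i s).im)]
  have tot : 2 * κ * (∑ i, ∑ s, (star (W i s) * V' i s).re) - κ ^ 2 * frobSq W ≤ frobSq V' := by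
    unfold frobSq
    simp only [Finset.mul_sum, ← Finset.sum_sub_distrib]
    exact Finset.sum_le_sum fun i _ => Finset.sum_le_sum fun s _ => key i s
  linarith

end

end Vale.Agent.P371
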