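import Mathlib.Analysis.Matrix.Order
import Mathlib.LinearAlgebra.Matrix.Hadamard
import Mathlib.Analysis.SpecialFunctions.Trigonometric.EulerSineProd
import Mathlib.Analysis.SpecificLimits.Basic
import Mathlib.Analysis.SpecificLimits.Normed

/-! # Positive semidefinite trigonometric kernels -/

namespace Vale.Agent.P371

open Filter Topology Matrix
open scoped ComplexOrder

noncomputable section

variable {ι : Type} [Fintype ι]

/-- A real kernel is positive semidefinite. -/
def PK (K : ι → ι → ℝ) : Prop := (Matrix.of fun i j => (K i j : ℂ)).PosSemidef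

/-- The quadratic form of a complex matrix. -/
def qf (M : Matrix ι ι ℂ) (w : ι → ℂ) : ℂ := ∑ i, ∑ j, star (w i) * M i j * w j

theorem qf_eq (M : Matrix ι ι ℂ) (w : ι → ℂ) : qf M w = star w ⬝ᵥ (M *ᵥ w) := by
  simp [qf, dotProduct, mulVec, Finset.mul_sum, mul_assoc]

theorem qf_nonneg {M : Matrix ι ι ℂ} (h : M.PosSemidef) (w : ι → ℂ) : 0 ≤ (qf M w).re := by
  rw [qf_eq]
  exact (Complex.le_def.mp (h.dotProduct_mulVec_nonneg w)).1

theorem PK.congr {K K' : ι → ι → ℝ} (h : PK K) (e : ∀ i j, K i j = K' i j) : PK K' := by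
  have : K = K' := funext fun i => funext (e i)
  exact this ▸ h

theorem PK.mul {K L : ι → ι → ℝ} (hK : PK K) (hL : PK L) : PK fun i j => K i j * L i j := by
  have := Matrix.PosSemidef.hadamard hK hL
  have e : (Matrix.of fun i j => ((K i j * L i j : ℝ) : ℂ))
      = (Matrix.of fun i j => (K i j : ℂ)) ⊙ (Matrix.of fun i j => (L i j : ℂ)) := by
    ext i j
    simp [Matrix.hadamard]
  rw [PK, e]
  exact this

theorem PK.add {K L : ι → ι → ℝ} (hK : PK K) (hL : PK L) : PK fun i j => K i j + L i j := by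
  have := Matrix.PosSemidef.add hK hL
  rw [PK]
  convert this using 1
  ext i j
  simp

theorem PK.rankOne (f : ι → ℝ) : PK fun i j => f i * f j := by
  have := posSemidef_vecMulVec_self_star (R := ℂ) (fun i => (f i : ℂ))
  rw [PK]
  convert this using 1
  ext i j
  simp [vecMulVec]

theorem PK.const {c : ℝ} (hc : 0 ≤ c) : PK fun _ _ : ι => c :=
  (PK.rankOne (fun _ : ι => Real.sqrt c)).congr fun _ _ => Real.mul_self_sqrt hc

theorem PK.smul {K : ι → ι → ℝ} (hK : PK K) {c : ℝ} (hc : 0 ≤ c) : PK fun i j => c * K i j :=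
  (PK.const hc).mul hK

theorem PK.tendsto {κ : Type*} {l : Filter κ} [NeBot l] {K : κ → ι → ι → ℝ} {L : ι → ι → ℝ}
    (hK : ∀ n, PK (K n)) (hlim : ∀ i j, Tendsto (fun n => K n i j) l (𝓝 (L i j))) : PK L := by
  rw [PK, posSemidef_iff_dotProduct_mulVec]
  refine ⟨?_, fun x => ?_⟩
  · ext i j
    rw [conjTranspose_apply, Matrix.of_apply, Matrix.of_apply, Complex.star_def, Complex.conj_ofReal]
    norm_cast
    refine tendsto_nhds_unique (hlim j i) ((hlim i j).congr fun n => ?_)
    have := congrFun (congrFun (hK n).isHermitian i) j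
    rw [conjTranspose_apply, Matrix.of_apply, Matrix.of_apply, Complex.star_def,
      Complex.conj_ofReal] at this
    exact_mod_cast this.symm
  · rw [← qf_eq]
    have hn : ∀ n, 0 ≤ qf (Matrix.of fun i j => (K n i j : ℂ)) x := fun n => by
      rw [qf_eq]; exact (hK n).dotProduct_mulVec_nonneg x
    have hl : Tendsto (fun n => qf (Matrix.of fun i j => (K n i j : ℂ)) x) l
        (𝓝 (qf (Matrix.of fun i j => (L i j : ℂ)) x)) := by
      refine tendsto_finsetSum _ fun i _ => tendsto_finsetSum _ fun j _ => ?_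
      exact (((Complex.continuous_ofReal.tendsto _).comp (hlim i j)).const_mul _).mul_const _
    exact ge_of_tendsto' hl hn

theorem PK.prod {κ : Type*} (s : Finset κ) (K : κ → ι → ι → ℝ) (h : ∀ n ∈ s, PK (K n)) :
    PK fun i j => ∏ n ∈ s, K n i j := by
  classical
  induction s using Finset.induction_on with
  | empty => simpa using PK.const (ι := ι) zero_le_one
  | insert a s ha ih =>
    simp only [Finset.prod_insert ha]
    exact (h a (Finset.mem_insert_self a s)).mul (ih fun n hn => h n (Finset.mem_insert_of_mem hn))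

theorem PK.geom {u : ι → ℝ} (hu : ∀ i, |u i| < 1) : PK fun i j => (1 - u i * u j)⁻¹ := by
  have hpow : ∀ L : ℕ, PK fun i j => ∑ l ∈ Finset.range L, (u i * u j) ^ l := by
    intro L
    induction L with
    | zero => simpa using PK.const (ι := ι) le_rfl
    | succ L ih =>
      simp only [Finset.sum_range_succ]
      exact ih.add ((PK.rankOne fun i => u i ^ L).congr fun i j => (mul_pow _ _ _).symm)
  refine PK.tendsto (l := atTop) hpow fun i j => ?_
  refine (hasSum_geometric_of_abs_lt_one ?_).tendsto_sum_nat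
  rw [abs_mul]
  exact mul_lt_one_of_nonneg_of_lt_one_left (abs_nonneg _) (hu i) (hu j).le

theorem PK.cauchy {x : ι → ℝ} (hx : ∀ i, 0 < x i) : PK fun i j => (x i + x j)⁻¹ := by
  have hu : ∀ i, |(1 - x i) / (1 + x i)| < 1 := by
    intro i
    have := hx i
    rw [abs_div, abs_of_pos (show (0 : ℝ) < 1 + x i by linarith), div_lt_one (by linarith), abs_lt]
    constructor <;> linarith
  refine (((PK.rankOne fun i => (1 + x i)⁻¹).mul (PK.geom hu)).smul
    (show (0 : ℝ) ≤ 2 by norm_num)).congr fun i j => ?_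
  have := hx i
  have := hx j
  have h3 : (1 + x i) * (1 + x j) - (1 - x i) * (1 - x j) ≠ 0 := by nlinarith
  field_simp
  ring

/-- One factor of the sine quotient. -/
theorem PK.sineFactor {a : ι → ℝ} (ha : ∀ i, 0 < a i ∧ a i < Real.pi / 2) {ρ : ℝ} (h0 : 0 ≤ ρ)
    (h1 : ρ ≤ 1) (l : ℕ) :
    PK fun i j => (1 - (ρ * (a i + a j) / Real.pi) ^ 2 / ((l : ℝ) + 1) ^ 2)
      / (1 - ((a i + a j) / Real.pi) ^ 2 / ((l : ℝ) + 1) ^ 2) := by
  set c := Real.pi * ((l : ℝ) + 1) with hc
  have hcpi : Real.pi ≤ c := by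
    rw [hc]; nlinarith [Real.pi_pos, show (0 : ℝ) ≤ l by positivity]
  have hp : PK fun i j => (c / 2 + a i + (c / 2 + a j))⁻¹ :=
    PK.cauchy (x := fun i => c / 2 + a i) fun i => by linarith [(ha i).1, Real.pi_pos]
  have hm : PK fun i j => (c / 2 - a i + (c / 2 - a j))⁻¹ :=
    PK.cauchy (x := fun i => c / 2 - a i) fun i => by linarith [(ha i).2]
  have hρ : (0 : ℝ) ≤ 1 - ρ ^ 2 := by nlinarith
  refine ((PK.const (sq_nonneg ρ)).add ((hp.add hm).smul
    (show (0 : ℝ) ≤ (1 - ρ ^ 2) * c / 2 by nlinarith [Real.pi_pos]))).congr fun i j => ?_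
  have h2 : 0 < a i + a j := by linarith [(ha i).1, (ha j).1]
  have h3 : a i + a j < c := by linarith [(ha i).2, (ha j).2]
  have hc0 : 0 < c := by linarith
  rw [div_pow, div_pow, div_div, div_div, ← mul_pow, ← hc,
    show c / 2 + a i + (c / 2 + a j) = c + (a i + a j) by ring,
    show c / 2 - a i + (c / 2 - a j) = c - (a i + a j) by ring]
  set C := a i + a j
  have h4 : c ^ 2 - C ^ 2 ≠ 0 := by nlinarith
  have h5 : c + C ≠ 0 := by linarith
  have h6 : c - C ≠ 0 := by linarith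
  have h7 : 1 - C ^ 2 / c ^ 2 ≠ 0 := by
    rw [one_sub_div (by positivity)]; exact div_ne_zero h4 (by positivity)
  field_simp
  ring

theorem sine_quotient {C ρ : ℝ} (hC0 : 0 < C) (hC : C < Real.pi) :
    Tendsto (fun n : ℕ => ρ * ∏ l ∈ Finset.range n,
      (1 - (ρ * C / Real.pi) ^ 2 / ((l : ℝ) + 1) ^ 2) / (1 - (C / Real.pi) ^ 2 / ((l : ℝ) + 1) ^ 2))
      atTop (𝓝 (Real.sin (ρ * C) / Real.sin C)) := by
  have h1 := Real.tendsto_euler_sin_prod (ρ * C / Real.pi)
  have h2 := Real.tendsto_euler_sin_prod (C / Real.pi)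
  have e : ∀ x : ℝ, Real.pi * (x / Real.pi) = x := fun x => by field_simp
  simp only [e] at h1 h2
  refine (h1.div h2 (Real.sin_pos_of_pos_of_lt_pi hC0 hC).ne').congr fun n => ?_
  simp only [Pi.div_apply]
  rw [Finset.prod_div_distrib, mul_div_mul_comm]
  congr 1
  field_simp

theorem PK.sineRatio {a : ι → ℝ} (ha : ∀ i, 0 < a i ∧ a i < Real.pi / 2) {ρ : ℝ} (h0 : 0 ≤ ρ)
    (h1 : ρ ≤ 1) : PK fun i j => Real.sin (ρ * (a i + a j)) / Real.sin (a i + a j) := by
  refine PK.tendsto (l := atTop) (fun n => (PK.prod (Finset.range n) _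
    (fun l _ => PK.sineFactor ha h0 h1 l)).smul h0) fun i j => ?_
  exact sine_quotient (by linarith [(ha i).1, (ha j).1]) (by linarith [(ha i).2, (ha j).2])

theorem PK.sineShift {a : ι → ℝ} (ha : ∀ i, 0 < a i ∧ a i < Real.pi / 2) {ρ ν : ℝ} (h0 : 0 < ρ)
    (h1 : ρ < 1) (hν : 0 ≤ ν) (hν' : ν ≤ (1 - ρ) * Real.pi) :
    PK fun i j => Real.sin (ρ * (a i + a j) + ν) / Real.sin (a i + a j) := by
  set ν₀ := (1 - ρ) * Real.pi with hν₀
  have hs : 0 < Real.sin ν₀ := Real.sin_pos_of_pos_of_lt_pi (by rw [hν₀]; nlinarith [Real.pi_pos])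
    (by rw [hν₀]; nlinarith [Real.pi_pos])
  have hb : ∀ i, 0 < Real.pi / 2 - a i ∧ Real.pi / 2 - a i < Real.pi / 2 := fun i => by
    constructor <;> linarith [(ha i).1, (ha i).2]
  have hν0' : ν₀ < Real.pi := by rw [hν₀]; nlinarith [Real.pi_pos]
  refine (((PK.sineRatio ha h0.le h1.le).smul (c := Real.sin (ν₀ - ν) / Real.sin ν₀) ?_).add
    ((PK.sineRatio hb h0.le h1.le).smul (c := Real.sin ν / Real.sin ν₀) ?_)).congr fun i j => ?_
  · exact div_nonneg (Real.sin_nonneg_of_nonneg_of_le_pi (by linarith) (by linarith)) hs.le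
  · exact div_nonneg (Real.sin_nonneg_of_nonneg_of_le_pi hν (by linarith)) hs.le
  · set C := a i + a j with hC
    have hsC : Real.sin C ≠ 0 := (Real.sin_pos_of_pos_of_lt_pi (by linarith [(ha i).1, (ha j).1])
      (by linarith [(ha i).2, (ha j).2])).ne'
    have e1 : Real.pi / 2 - a i + (Real.pi / 2 - a j) = Real.pi - C := by rw [hC]; ring
    rw [e1, Real.sin_pi_sub, show ρ * (Real.pi - C) = Real.pi - (ν₀ + ρ * C) by rw [hν₀]; ring,
      Real.sin_pi_sub, Real.sin_add ν₀, Real.sin_sub ν₀, Real.sin_add (ρ * C)]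
    field_simp
    ring

theorem PK.cosDiff (x : ι → ℝ) : PK fun i j => Real.cos (x i - x j) :=
  ((PK.rankOne fun i => Real.cos (x i)).add (PK.rankOne fun i => Real.sin (x i))).congr
    fun i j => (Real.cos_sub _ _).symm

/-- `G` below is `sin (a + b) cos (r (a - b))`. -/
def gker (r a b : ℝ) : ℝ := Real.sin (a + b) * Real.cos (r * (a - b))

theorem gker_eq (r a b : ℝ) :
    gker r a b = (Real.sin ((1 + r) * a + (1 - r) * b) + Real.sin ((1 - r) * a + (1 + r) * b)) / 2 := by
  rw [gker, show (1 + r) * a + (1 - r) * b = (a + b) + r * (a - b) by ring,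
    show (1 - r) * a + (1 + r) * b = (a + b) - r * (a - b) by ring, Real.sin_add (a + b),
    Real.sin_sub (a + b)]
  ring

/-- The key kernel. -/
theorem PK.key {a : ι → ℝ} (ha : ∀ i, 0 < a i ∧ a i < Real.pi / 2) {r k : ℝ} (hr0 : 0 ≤ r)
    (hr1 : r < 1) (hk0 : 0 ≤ k) (hk1 : k ≤ Real.pi / 2) :
    PK fun i j => (gker r (a i) k + gker r (a j) k) / Real.sin (a i + a j) := by
  have p1 := (PK.sineShift ha (ρ := (1 + r) / 2) (ν := (1 - r) * k) (by linarith) (by linarith)
    (by nlinarith) (by nlinarith)).mul (PK.cosDiff fun i => (1 + r) / 2 * a i)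
  have p2 := (PK.sineShift ha (ρ := (1 - r) / 2) (ν := (1 + r) * k) (by linarith) (by linarith)
    (by nlinarith) (by nlinarith)).mul (PK.cosDiff fun i => (1 - r) / 2 * a i)
  refine (p1.add p2).congr fun i j => ?_
  rw [gker_eq, gker_eq]
  have e : ∀ u v : ℝ, Real.sin u + Real.sin v = 2 * Real.sin ((u + v) / 2) * Real.cos ((u - v) / 2) :=
    fun u v => by
      have hu : u = (u + v) / 2 + (u - v) / 2 := by ring
      have hv : v = (u + v) / 2 - (u - v) / 2 := by ring
      conv_lhs => rw [hu, hv, Real.sin_add, Real.sin_sub]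
      ring
  have h1 := e ((1 + r) * a i + (1 - r) * k) ((1 + r) * a j + (1 - r) * k)
  have h2 := e ((1 - r) * a i + (1 + r) * k) ((1 - r) * a j + (1 + r) * k)
  rw [show ((1 + r) * a i + (1 - r) * k + ((1 + r) * a j + (1 - r) * k)) / 2
      = (1 + r) / 2 * (a i + a j) + (1 - r) * k by ring,
    show ((1 + r) * a i + (1 - r) * k - ((1 + r) * a j + (1 - r) * k)) / 2
      = (1 + r) / 2 * a i - (1 + r) / 2 * a j by ring] at h1
  rw [show ((1 - r) * a i + (1 + r) * k + ((1 - r) * a j + (1 + r) * k)) / 2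
      = (1 - r) / 2 * (a i + a j) + (1 + r) * k by ring,
    show ((1 - r) * a i + (1 + r) * k - ((1 - r) * a j + (1 + r) * k)) / 2
      = (1 - r) / 2 * a i - (1 - r) / 2 * a j by ring] at h2
  rw [show ((Real.sin ((1 + r) * a i + (1 - r) * k) + Real.sin ((1 - r) * a i + (1 + r) * k)) / 2
      + (Real.sin ((1 + r) * a j + (1 - r) * k) + Real.sin ((1 - r) * a j + (1 + r) * k)) / 2)
      = ((Real.sin ((1 + r) * a i + (1 - r) * k) + Real.sin ((1 + r) * a j + (1 - r) * k))
        + (Real.sin ((1 - r) * a i + (1 + r) * k) + Real.sin ((1 - r) * a j + (1 + r) * k))) / 2 by ring,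
    h1, h2]
  ring

end

end Vale.Agent.P371
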