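import Vale.Agent.P371.Calculus

/-! # The sharp kinetic inequality for orthonormal systems on the line -/

namespace Vale.Agent.P371

open MeasureTheory Filter Topology Matrix
open scoped ComplexOrder

noncomputable section

variable {ι γ : Type} [Fintype ι] [DecidableEq ι] [Fintype γ]

/-- The matrix of values of the family at a point. -/
def ymat (ψ : ι → γ → ℝ → ℂ) (x : ℝ) : Matrix ι γ ℂ := Matrix.of fun n s => ψ n s x

/-- The density matrix entries. -/
def dens (ψ : ι → γ → ℝ → ℂ) (n k : ι) (t : ℝ) : ℂ := (ymat ψ t * (ymat ψ t)ᴴ) n k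

/-- The running Gram matrix. -/
def mmat (ψ : ι → γ → ℝ → ℂ) (x : ℝ) : Matrix ι ι ℂ :=
  Matrix.of fun n k => ∫ t in Set.Iic x, dens ψ n k t

/-- A finite orthonormal family in `H¹(ℝ; ℂ^γ)`. -/
structure OrthFam (ψ ψ' : ι → γ → ℝ → ℂ) : Prop where
  h1 : ∀ n s, IsH1 (ψ n s) (ψ' n s)
  orth : ∀ n k, ∫ x, dens ψ n k x = if n = k then 1 else 0

omit [Fintype ι] [DecidableEq ι] in
theorem dens_eq (ψ : ι → γ → ℝ → ℂ) (n k : ι) (t : ℝ) :
    dens ψ n k t = ∑ s, ψ n s t * star (ψ k s t) := rfl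

theorem frobSq_ymat (ψ : ι → γ → ℝ → ℂ) (x : ℝ) :
    frobSq (ymat ψ x) = ∑ n, ∑ s, Complex.normSq (ψ n s x) := rfl

theorem OrthFam.dens_continuous {ψ ψ' : ι → γ → ℝ → ℂ} (h : OrthFam ψ ψ') (n k : ι) :
    Continuous (dens ψ n k) := by
  have : dens ψ n k = fun t => ∑ s, ψ n s t * star (ψ k s t) := rfl
  rw [this]
  exact continuous_finsetSum _ fun s _ =>
    ((h.h1 n s).continuous).mul (continuous_star.comp (h.h1 k s).continuous)

theorem OrthFam.dens_integrable {ψ ψ' : ι → γ → ℝ → ℂ} (h : OrthFam ψ ψ') (n k : ι) :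
    Integrable (dens ψ n k) := by
  have e : dens ψ n k = fun t => ∑ s, ψ n s t * star (ψ k s t) := rfl
  rw [e]
  refine integrable_finsetSum _ fun s _ => ?_
  refine Integrable.mono' ((h.h1 n s).normSq_integrable.1.add (h.h1 k s).normSq_integrable.1)
    (((h.h1 n s).continuous).mul (continuous_star.comp (h.h1 k s).continuous)).aestronglyMeasurable
    (Eventually.of_forall fun t => ?_)
  simp only [Pi.add_apply, norm_mul, norm_star, Complex.normSq_eq_norm_sq]
  nlinarith [sq_nonneg (‖ψ n s t‖ - ‖ψ k s t‖), norm_nonneg (ψ n s t), norm_nonneg (ψ k s t)]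

theorem qf_dens_nonneg (ψ : ι → γ → ℝ → ℂ) (w : ι → ℂ) (t : ℝ) :
    0 ≤ (qf (Matrix.of fun n k => dens ψ n k t) w).re :=
  qf_nonneg (Matrix.posSemidef_self_mul_conjTranspose (ymat ψ t)) w

theorem OrthFam.qf_setIntegral {ψ ψ' : ι → γ → ℝ → ℂ} (h : OrthFam ψ ψ') (w : ι → ℂ) (s : Set ℝ) :
    (qf (Matrix.of fun n k => ∫ t in s, dens ψ n k t) w).re
      = ∫ t in s, (qf (Matrix.of fun n k => dens ψ n k t) w).re := by
  have hi : ∀ n k, Integrable (fun t => star (w n) * dens ψ n k t * w k) (volume.restrict s) :=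
    fun n k => (((h.dens_integrable n k).integrableOn).const_mul _).mul_const _
  have e : ∫ t in s, qf (Matrix.of fun n k => dens ψ n k t) w
      = qf (Matrix.of fun n k => ∫ t in s, dens ψ n k t) w := by
    simp only [qf, Matrix.of_apply]
    rw [integral_finsetSum _ fun n _ => integrable_finsetSum _ fun k _ => hi n k]
    refine Finset.sum_congr rfl fun n _ => ?_
    rw [integral_finsetSum _ fun k _ => hi n k]
    refine Finset.sum_congr rfl fun k _ => ?_
    rw [integral_mul_const, integral_const_mul]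
  rw [← e]
  have hint : Integrable (fun t => qf (Matrix.of fun n k => dens ψ n k t) w) (volume.restrict s) := by
    simp only [qf, Matrix.of_apply]
    exact integrable_finsetSum _ fun n _ => integrable_finsetSum _ fun k _ => hi n k
  exact (Complex.reCLM.integral_comp_comm hint).symm

theorem OrthFam.mmat_bounds {ψ ψ' : ι → γ → ℝ → ℂ} (h : OrthFam ψ ψ') (x : ℝ) :
    (mmat ψ x).IsHermitian ∧ (∀ w, 0 ≤ (qf (mmat ψ x) w).re) ∧
      ∀ w, (qf (mmat ψ x) w).re ≤ ∑ i, Complex.normSq (w i) := by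
  refine ⟨?_, fun w => ?_, fun w => ?_⟩
  · ext n k
    simp only [conjTranspose_apply, mmat, Matrix.of_apply, Complex.star_def, ← integral_conj]
    refine integral_congr_ae (Eventually.of_forall fun t => ?_)
    simp only [dens_eq, map_sum, map_mul, Complex.star_def, Complex.conj_conj]
    exact Finset.sum_congr rfl fun s _ => mul_comm _ _
  · rw [mmat, h.qf_setIntegral]
    exact integral_nonneg fun t => qf_dens_nonneg ψ w t
  · rw [mmat, h.qf_setIntegral]
    have hint : Integrable (fun t => (qf (Matrix.of fun n k => dens ψ n k t) w).re) := by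
      simp only [qf, Matrix.of_apply]
      exact Complex.reCLM.integrable_comp (integrable_finsetSum _ fun n _ =>
        integrable_finsetSum _ fun k _ => ((h.dens_integrable n k).const_mul _).mul_const _)
    refine (setIntegral_le_integral hint (Eventually.of_forall fun t => qf_dens_nonneg ψ w t)).trans ?_
    rw [← setIntegral_univ, ← h.qf_setIntegral]
    simp only [setIntegral_univ, qf, Matrix.of_apply, h.orth, mul_ite, mul_one, mul_zero, ite_mul,
      zero_mul, Finset.sum_ite_eq, Finset.mem_univ, if_true, Complex.re_sum]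
    refine le_of_eq (Finset.sum_congr rfl fun n _ => ?_)
    rw [Complex.star_def, ← Complex.normSq_eq_conj_mul_self, Complex.ofReal_re]

/-- Entrywise absolute continuity. -/
def MAC {α β : Type} (F : ℝ → Matrix α β ℂ) (a b : ℝ) : Prop := ∀ i j, ACc (fun t => F t i j) a b

theorem MAC.mul {α β δ : Type} [Fintype β] {F : ℝ → Matrix α β ℂ} {G : ℝ → Matrix β δ ℂ} {a b : ℝ}
    (hF : MAC F a b) (hG : MAC G a b) : MAC (fun t => F t * G t) a b := by
  intro i j
  simp only [Matrix.mul_apply]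
  exact ACc.sum _ _ a b fun k _ => (hF i k).mul (hG k j)

theorem MAC.add {α β : Type} {F G : ℝ → Matrix α β ℂ} {a b : ℝ}
    (hF : MAC F a b) (hG : MAC G a b) : MAC (fun t => F t + G t) a b :=
  fun i j => (hF i j).add (hG i j)

theorem MAC.lPow {A Z : ℝ → Matrix ι ι ℂ} {a b : ℝ} (hA : MAC A a b) (hZ : MAC Z a b) :
    ∀ l, MAC (fun t => lPow (A t) (Z t) l) a b
  | 0 => hZ
  | l + 1 => (hA.mul (MAC.lPow hA hZ l)).add ((MAC.lPow hA hZ l).mul hA)

omit [DecidableEq ι] in
theorem ac_qFun {A Z : ℝ → Matrix ι ι ℂ} {a b : ℝ} (hA : MAC A a b) (hZ : MAC Z a b) (D : ℕ)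
    (c : ℕ → ℝ) : AbsolutelyContinuousOnInterval (fun t => qFun D c (A t) (Z t)) a b := by
  classical
  refine ac_sum _ _ a b fun l _ => ?_
  have h := (hA.lPow hZ l).mul hZ
  have : ACc (fun t => (lPow (A t) (Z t) l * Z t).trace) a b :=
    ACc.sum _ _ a b fun i _ => h i i
  exact this.1.const_mul (c l)

theorem OrthFam.mmat_eq {ψ ψ' : ι → γ → ℝ → ℂ} (h : OrthFam ψ ψ') (n k : ι) :
    (fun t => mmat ψ t n k) = fun t => mmat ψ 0 n k + ∫ u in (0 : ℝ)..t, dens ψ n k u := by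
  funext t
  simp only [mmat, Matrix.of_apply]
  rw [← intervalIntegral.integral_Iic_sub_Iic (h.dens_integrable n k).integrableOn
    (h.dens_integrable n k).integrableOn]
  ring

theorem OrthFam.regA_mderiv {ψ ψ' : ι → γ → ℝ → ℂ} (h : OrthFam ψ ψ') (ε x : ℝ) :
    MDeriv (fun t => regA ε (mmat ψ t))
      (((Real.pi / 2 * (1 - 2 * ε) : ℝ) : ℂ) • (ymat ψ x * (ymat ψ x)ᴴ)) x := by
  intro n k
  simp only [regA, Matrix.add_apply, Matrix.smul_apply, smul_eq_mul]
  refine HasDerivAt.const_add _ (HasDerivAt.const_mul _ ?_)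
  rw [h.mmat_eq n k]
  exact ((h.dens_continuous n k).integral_hasStrictDerivAt 0 x).hasDerivAt.const_add _

theorem OrthFam.regA_mac {ψ ψ' : ι → γ → ℝ → ℂ} (h : OrthFam ψ ψ') (ε a b : ℝ) :
    MAC (fun t => regA ε (mmat ψ t)) a b := by
  intro n k
  simp only [regA, Matrix.add_apply, Matrix.smul_apply, smul_eq_mul]
  refine (ACc.const _ a b).add ((ACc.const _ a b).mul ?_)
  rw [h.mmat_eq n k]
  exact ACc.prim (fun u v => (h.dens_continuous n k).intervalIntegrable u v) _ a b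

theorem OrthFam.ymat_mac {ψ ψ' : ι → γ → ℝ → ℂ} (h : OrthFam ψ ψ') (a b : ℝ) :
    MAC (ymat ψ) a b ∧ MAC (fun t => (ymat ψ t)ᴴ) a b :=
  ⟨fun n s => (h.h1 n s).acc a b, fun s n => ((h.h1 n s).acc a b).star⟩

theorem OrthFam.ymat_mderiv {ψ ψ' : ι → γ → ℝ → ℂ} (h : OrthFam ψ ψ') :
    ∀ᵐ x, MDeriv (ymat ψ) (ymat ψ' x) x := by
  have : ∀ᵐ x, ∀ n s, HasDerivAt (ψ n s) (ψ' n s x) x :=
    ae_all_iff.mpr fun n => ae_all_iff.mpr fun s => (h.h1 n s).ae_deriv
  filter_upwards [this] with x hx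
  exact fun n s => hx n s

theorem OrthFam.sum_bounded {ψ ψ' : ι → γ → ℝ → ℂ} (h : OrthFam ψ ψ') :
    ∃ B, 0 ≤ B ∧ ∀ x, frobSq (ymat ψ x) ≤ B := by
  refine ⟨∑ n, ∑ s, (Complex.normSq (ψ n s 0)
    + ((∫ t, Complex.normSq (ψ n s t)) + ∫ t, Complex.normSq (ψ' n s t))), ?_, fun x => ?_⟩
  · exact Finset.sum_nonneg fun n _ => Finset.sum_nonneg fun s _ => add_nonneg (Complex.normSq_nonneg _)
      (add_nonneg (integral_nonneg fun t => Complex.normSq_nonneg _)
        (integral_nonneg fun t => Complex.normSq_nonneg _))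
  · rw [frobSq_ymat]
    exact Finset.sum_le_sum fun n _ => Finset.sum_le_sum fun s _ => (h.h1 n s).bounded x

theorem OrthFam.frob_integrable {ψ ψ' : ι → γ → ℝ → ℂ} (h : OrthFam ψ ψ') :
    Integrable (fun x => frobSq (ymat ψ x)) ∧ Integrable (fun x => frobSq (ymat ψ' x)) :=
  ⟨integrable_finsetSum _ fun n _ => integrable_finsetSum _ fun s _ => (h.h1 n s).normSq_integrable.1,
   integrable_finsetSum _ fun n _ => integrable_finsetSum _ fun s _ => (h.h1 n s).normSq_integrable.2⟩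

theorem OrthFam.frob_continuous {ψ ψ' : ι → γ → ℝ → ℂ} (h : OrthFam ψ ψ') :
    Continuous (fun x => frobSq (ymat ψ x)) := by
  simp only [frobSq_ymat]
  exact continuous_finsetSum _ fun n _ => continuous_finsetSum _ fun s _ =>
    Complex.continuous_normSq.comp (h.h1 n s).continuous

theorem OrthFam.cube_continuous {ψ ψ' : ι → γ → ℝ → ℂ} (h : OrthFam ψ ψ') :
    Continuous (fun x => cubeTr (ymat ψ x * (ymat ψ x)ᴴ)) := by
  simp only [cubeTr_eq]
  refine continuous_finsetSum _ fun i _ => continuous_finsetSum _ fun j _ =>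
    continuous_finsetSum _ fun k _ => Complex.continuous_re.comp ?_
  exact ((h.dens_continuous i j).mul (h.dens_continuous j k)).mul (h.dens_continuous k i)

theorem OrthFam.cube_integrable {ψ ψ' : ι → γ → ℝ → ℂ} (h : OrthFam ψ ψ') :
    Integrable (fun x => frobSq (ymat ψ x) ^ 3) ∧
      Integrable (fun x => cubeTr (ymat ψ x * (ymat ψ x)ᴴ)) := by
  obtain ⟨B, hB0, hB⟩ := h.sum_bounded
  have h3 : Integrable (fun x => frobSq (ymat ψ x) ^ 3) := by
    refine Integrable.mono' (h.frob_integrable.1.const_mul (B ^ 2))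
      (h.frob_continuous.pow 3).aestronglyMeasurable (Eventually.of_forall fun x => ?_)
    rw [Real.norm_eq_abs, abs_of_nonneg (pow_nonneg (frobSq_nonneg _) 3), pow_succ]
    exact mul_le_mul_of_nonneg_right (pow_le_pow_left₀ (frobSq_nonneg _) (hB x) 2) (frobSq_nonneg _)
  refine ⟨h3, Integrable.mono' (h3.const_mul ((Fintype.card ι : ℝ) ^ 3))
    h.cube_continuous.aestronglyMeasurable (Eventually.of_forall fun x => ?_)⟩
  rw [Real.norm_eq_abs, cubeTr_eq]
  refine (Finset.abs_sum_le_sum_abs _ _).trans ((Finset.sum_le_sum fun i _ =>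
    (Finset.abs_sum_le_sum_abs _ _).trans (Finset.sum_le_sum fun j _ =>
      (Finset.abs_sum_le_sum_abs _ _).trans
        (Finset.sum_le_sum (g := fun _ => frobSq (ymat ψ x) ^ 3) fun k _ =>
          tri_abs_le (ymat ψ x) i j k))).trans ?_)
  simp only [Finset.sum_const, Finset.card_univ, nsmul_eq_mul]
  exact le_of_eq (by ring)

theorem OrthFam.approx_ineq {ψ ψ' : ι → γ → ℝ → ℂ} (h : OrthFam ψ ψ') {ε δ : ℝ} (hε : 0 < ε)
    (hε' : ε < 1 / 2) (hδ : 0 < δ) :
    (Real.pi / 2 * (1 - 2 * ε)) ^ 2 * ((∫ x, cubeTr (ymat ψ x * (ymat ψ x)ᴴ))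
        - 2 * δ * (Fintype.card ι : ℝ) ^ 3 * ∫ x, frobSq (ymat ψ x) ^ 3)
      ≤ ∫ x, frobSq (ymat ψ' x) := by
  set κ := Real.pi / 2 * (1 - 2 * ε) with hκ
  set lo := Real.pi * ε with hlo
  set hi := Real.pi * (1 - ε) with hhi
  have hpi := Real.pi_pos
  have hlo0 : 0 < lo := by rw [hlo]; positivity
  have hlohi : lo ≤ hi := by rw [hlo, hhi]; nlinarith
  have hhipi : hi < Real.pi := by rw [hhi]; nlinarith
  obtain ⟨D, c, hc⟩ := cot_approx hlo0 hlohi hhipi hδ
  obtain ⟨C, hC⟩ := (isCompact_Icc (a := lo) (b := hi)).exists_bound_of_continuousOn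
    (f := pev D c) (fun u _ => (hasDerivAt_pev D c u).continuousAt.continuousWithinAt)
  set A := fun t => regA ε (mmat ψ t) with hA
  set Z := fun t => ymat ψ t * (ymat ψ t)ᴴ with hZ
  set F := fun t => κ / 2 * qFun D c (A t) (Z t) with hF
  have spec : ∀ t, ∃ (U : Matrix ι ι ℂ) (a : ι → ℝ), star U * U = 1 ∧ A t = conjU U (dg a) ∧
      (∀ i, 0 < a i ∧ a i < Real.pi / 2) ∧ ∀ i j, a i + a j ∈ Set.Icc lo hi := by
    intro t
    obtain ⟨hM1, hM2, hM3⟩ := h.mmat_bounds t
    obtain ⟨U, a, hU, he, hb⟩ := regA_spec hε hε' hM1 hM2 hM3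
    refine ⟨U, a, hU, he, fun i => ?_, fun i j => ?_⟩
    · constructor <;> nlinarith [(hb i).1, (hb i).2]
    · constructor
      · rw [hlo]; linarith [(hb i).1, (hb j).1]
      · rw [hhi]; linarith [(hb i).2, (hb j).2]
  set N3 := (Fintype.card ι : ℝ) ^ 3 with hN3
  set G := fun t => frobSq (ymat ψ' t)
    - κ ^ 2 * (cubeTr (Z t) - 2 * δ * N3 * frobSq (ymat ψ t) ^ 3) with hG
  have hGint : Integrable G :=
    h.frob_integrable.2.sub ((h.cube_integrable.2.sub
      (h.cube_integrable.1.const_mul _)).const_mul _)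
  have hderiv : ∀ᵐ t, deriv F t ≤ G t := by
    filter_upwards [h.ymat_mderiv] with t ht
    obtain ⟨U, a, hU, he, ha, hr⟩ := spec t
    have hZd : MDeriv Z (ymat ψ' t * (ymat ψ t)ᴴ + ymat ψ t * (ymat ψ' t)ᴴ) t :=
      ht.mul ht.conjTranspose
    have hd := (hasDerivAt_qFun (h.regA_mderiv ε t) hZd D c).const_mul (κ / 2)
    rw [show deriv F t = _ from hd.deriv]
    have := pointwise_ineq D c hc hU ha hr κ (ymat ψ t) (ymat ψ' t)
    rw [← he] at this
    simp only [hA] at this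
    simp only [hG, hZ]
    linarith
  have hFbd : ∀ t, |F t| ≤ |κ / 2| * ((Fintype.card ι : ℝ) ^ 2 * C * frobSq (ymat ψ t) ^ 2) := by
    intro t
    obtain ⟨U, a, hU, he, -, hr⟩ := spec t
    simp only [hF, abs_mul, hZ]
    refine mul_le_mul_of_nonneg_left ?_ (abs_nonneg _)
    rw [he]
    exact qFun_bound D c (fun u hu => hC u hu) hU hr (ymat ψ t)
  have hbox : ∀ b : ℝ, 0 ≤ b → F b - F (-b) ≤ ∫ t in (-b)..b, G t := by
    intro b hb
    have hac : AbsolutelyContinuousOnInterval F (-b) b :=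
      (ac_qFun (h.regA_mac ε _ _) ((h.ymat_mac _ _).1.mul (h.ymat_mac _ _).2) D c).const_mul _
    rw [← hac.integral_deriv_eq_sub]
    exact intervalIntegral.integral_mono_ae (by linarith) hac.intervalIntegrable_deriv
      (hGint.intervalIntegrable) hderiv
  have hseq : ∀ k : ℕ, ∃ b > (k : ℝ),
      frobSq (ymat ψ b) + frobSq (ymat ψ (-b)) < 1 / ((k : ℝ) + 1) := fun k =>
    exists_small h.frob_integrable.1 (by positivity) k
  choose b hb hbS using hseq
  have hbt : Tendsto b atTop atTop :=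
    tendsto_atTop_mono (fun k => (hb k).le) tendsto_natCast_atTop_atTop
  have hI : Tendsto (fun k => ∫ t in (-b k)..(b k), G t) atTop (𝓝 (∫ t, G t)) :=
    intervalIntegral_tendsto_integral hGint (tendsto_neg_atTop_atBot.comp hbt) hbt
  have hS0 : ∀ s : ℕ → ℝ, (∀ k, frobSq (ymat ψ (s k)) ≤ 1 / ((k : ℝ) + 1)) →
      Tendsto (fun k => F (s k)) atTop (𝓝 0) := by
    intro s hs
    have h1 : Tendsto (fun k => frobSq (ymat ψ (s k))) atTop (𝓝 0) :=
      squeeze_zero (fun k => frobSq_nonneg _) hs tendsto_one_div_add_atTop_nhds_zero_nat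
    refine squeeze_zero_norm (fun k => hFbd (s k)) ?_
    have := ((h1.pow 2).const_mul ((Fintype.card ι : ℝ) ^ 2 * C)).const_mul |κ / 2|
    simpa using this
  have h0 : 0 ≤ ∫ t, G t := by
    have hlim := (hS0 b fun k => by linarith [hbS k, frobSq_nonneg (ymat ψ (-b k))]).sub
      (hS0 (fun k => -b k) fun k => by linarith [hbS k, frobSq_nonneg (ymat ψ (b k))])
    rw [sub_zero] at hlim
    exact le_of_tendsto_of_tendsto' hlim hI fun k =>
      hbox (b k) ((Nat.cast_nonneg k).trans (hb k).le)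
  have e : ∫ t, G t = (∫ x, frobSq (ymat ψ' x)) - κ ^ 2 * ((∫ x, cubeTr (ymat ψ x * (ymat ψ x)ᴴ))
      - 2 * δ * N3 * ∫ x, frobSq (ymat ψ x) ^ 3) := by
    simp only [hG, hZ]
    rw [integral_sub h.frob_integrable.2, integral_const_mul,
      integral_sub h.cube_integrable.2 (h.cube_integrable.1.const_mul _), integral_const_mul]
    exact (h.cube_integrable.2.sub (h.cube_integrable.1.const_mul _)).const_mul _
  linarith

/-- The sharp orthonormal inequality `∫ tr ρ³ ≤ (4/π²) ∑ ∫ |ψₙ'|²`. -/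
theorem OrthFam.sharp {ψ ψ' : ι → γ → ℝ → ℂ} (h : OrthFam ψ ψ') :
    Real.pi ^ 2 / 4 * (∫ x, cubeTr (ymat ψ x * (ymat ψ x)ᴴ)) ≤ ∫ x, frobSq (ymat ψ' x) := by
  set u : ℕ → ℝ := fun k => 1 / ((k : ℝ) + 3) with hu
  have hu0 : Tendsto u atTop (𝓝 0) :=
    (tendsto_const_nhds).div_atTop (tendsto_atTop_add_const_right _ 3 tendsto_natCast_atTop_atTop)
  have hl : Tendsto (fun k => (Real.pi / 2 * (1 - 2 * u k)) ^ 2
      * ((∫ x, cubeTr (ymat ψ x * (ymat ψ x)ᴴ))
        - 2 * u k * (Fintype.card ι : ℝ) ^ 3 * ∫ x, frobSq (ymat ψ x) ^ 3)) atTop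
      (𝓝 (Real.pi ^ 2 / 4 * (∫ x, cubeTr (ymat ψ x * (ymat ψ x)ᴴ)))) := by
    have h1 := (((hu0.const_mul 2).const_sub 1).const_mul (Real.pi / 2)).pow 2
    have h2 := (((hu0.const_mul 2).mul_const ((Fintype.card ι : ℝ) ^ 3)).mul_const
      (∫ x, frobSq (ymat ψ x) ^ 3)).const_sub (∫ x, cubeTr (ymat ψ x * (ymat ψ x)ᴴ))
    have := h1.mul h2
    simp only [mul_zero, zero_mul, sub_zero, mul_one] at this
    rw [show Real.pi ^ 2 / 4 = (Real.pi / 2) ^ 2 by ring]
    exact this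
  refine le_of_tendsto' hl fun k => ?_
  have hk : u k ≤ 1 / 3 :=
    one_div_le_one_div_of_le (by norm_num) (by linarith [(Nat.cast_nonneg k : (0 : ℝ) ≤ k)])
  exact h.approx_ineq (by positivity) (by linarith) (by positivity)

end

end Vale.Agent.P371
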