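import Vale.Agent.P371.Deriv
import Mathlib.Analysis.Matrix.Spectrum

/-! # Polynomial approximation and the pointwise differential inequality -/

namespace Vale.Agent.P371

open Filter Topology Matrix
open scoped ComplexOrder

noncomputable section

theorem hasDerivAt_ct {u : ℝ} (h : Real.sin u ≠ 0) :
    HasDerivAt ct (-(1 / Real.sin u ^ 2)) u := by
  have := (Real.hasDerivAt_cos u).fun_div (Real.hasDerivAt_sin u) h
  unfold ct
  refine this.congr_deriv ?_
  rw [show -Real.sin u * Real.sin u - Real.cos u * Real.cos u = -1 by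
    nlinarith [Real.sin_sq_add_cos_sq u], neg_div]

theorem ctD_mul {u v : ℝ} (hu : Real.sin u ≠ 0) (hv : Real.sin v ≠ 0) :
    -ctD u v * (u - v) = ct u - ct v := by
  by_cases h : u = v
  · subst h; simp
  · have h' : u - v ≠ 0 := sub_ne_zero.mpr h
    rw [ctD, ct, ct, Real.sinc_of_ne_zero h', Real.sin_sub]
    field_simp
    ring

theorem cot_approx {lo hi : ℝ} (h0 : 0 < lo) (h1 : lo ≤ hi) (h2 : hi < Real.pi) {δ : ℝ}
    (hδ : 0 < δ) :
    ∃ (D : ℕ) (c : ℕ → ℝ), ∀ u ∈ Set.Icc lo hi, ∀ v ∈ Set.Icc lo hi,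
      |-pdd D c u v - ctD u v| ≤ δ ∧ |pev D c u * pev D c v - ct u * ct v| ≤ δ := by
  have hsin : ∀ u ∈ Set.Icc lo hi, Real.sin u ≠ 0 := fun u hu =>
    (Real.sin_pos_of_pos_of_lt_pi (by linarith [hu.1]) (by linarith [hu.2])).ne'
  obtain ⟨C, hC⟩ := (isCompact_Icc (a := lo) (b := hi)).exists_bound_of_continuousOn
    (f := ct) (fun u hu => (hasDerivAt_ct (hsin u hu)).continuousAt.continuousWithinAt)
  have hC0 : 0 ≤ C := (norm_nonneg _).trans (hC lo ⟨le_rfl, h1⟩)
  set δ₁ := min δ (min (1 / Real.pi) (δ / (Real.pi * (2 * C + 1)))) with hδ₁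
  have hδ₁0 : 0 < δ₁ := by rw [hδ₁]; positivity
  have hf : ContinuousOn (fun u => -(1 / Real.sin u ^ 2)) (Set.Icc lo hi) :=
    ((continuousOn_const.div (Real.continuous_sin.continuousOn.pow 2)
      fun u hu => pow_ne_zero 2 (hsin u hu))).neg
  obtain ⟨q, hq⟩ := exists_polynomial_near_of_continuousOn lo hi _ hf δ₁ hδ₁0
  set D := q.natDegree + 2 with hD
  set c₀ : ℕ → ℝ := fun l => if l = 0 then 0 else q.coeff (l - 1) / l with hc₀
  set c : ℕ → ℝ := fun l => if l = 0 then ct lo - pev D c₀ lo else c₀ l with hc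
  have hder : ∀ u, pdd D c u u = q.eval u := by
    intro u
    rw [Polynomial.eval_eq_sum_range, pdd, hD,
      show q.natDegree + 2 = q.natDegree + 1 + 1 from rfl, Finset.sum_range_succ']
    simp only [qdd_self, Nat.cast_zero, zero_mul, mul_zero, add_zero, Nat.add_sub_cancel]
    refine Finset.sum_congr rfl fun l _ => ?_
    simp only [hc, hc₀, Nat.succ_ne_zero, if_false, Nat.add_sub_cancel]
    field_simp
  have hpev : pev D c lo = ct lo := by
    have : pev D c lo = (ct lo - pev D c₀ lo) + pev D c₀ lo := by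
      have e1 : ∀ g : ℕ → ℝ, pev D g lo
          = (∑ i ∈ Finset.range (q.natDegree + 1), g (i + 1) * lo ^ (i + 1)) + g 0 := by
        intro g
        rw [pev, hD, show q.natDegree + 2 = q.natDegree + 1 + 1 from rfl, Finset.sum_range_succ']
        simp
      have e2 : ∀ i, c (i + 1) = c₀ (i + 1) := fun i => by simp [hc]
      have e3 : c 0 = ct lo - pev D c₀ lo := by simp [hc]
      have e4 : c₀ 0 = 0 := by simp [hc₀]
      have ec := e1 c
      simp only [e2, e3] at ec
      have e0 := e1 c₀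
      rw [e4, add_zero] at e0
      linarith
    rw [this]; ring
  set f : ℝ → ℝ := fun u => pev D c u - ct u with hf'
  have df : ∀ u ∈ Set.Icc lo hi, HasDerivAt f (q.eval u - -(1 / Real.sin u ^ 2)) u := by
    intro u hu
    rw [← hder u]
    exact (hasDerivAt_pev D c u).sub (hasDerivAt_ct (hsin u hu))
  have bd : ∀ u ∈ Set.Icc lo hi, ∀ v ∈ Set.Icc lo hi, v < u → |f u - f v| ≤ δ₁ * (u - v) := by
    intro u hu v hv huv
    have hsub : ∀ w ∈ Set.Icc v u, w ∈ Set.Icc lo hi := fun w hw =>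
      ⟨hv.1.trans hw.1, hw.2.trans hu.2⟩
    obtain ⟨w, hw, hw'⟩ := exists_hasDerivAt_eq_slope f
      (fun w => q.eval w - -(1 / Real.sin w ^ 2)) huv
      (fun w hw => (df w (hsub w hw)).continuousAt.continuousWithinAt)
      (fun w hw => df w (hsub w (Set.Ioo_subset_Icc_self hw)))
    have h3 := (hq w (hsub w (Set.Ioo_subset_Icc_self hw))).le
    rw [hw', abs_div, abs_of_pos (sub_pos.mpr huv), div_le_iff₀ (sub_pos.mpr huv)] at h3
    exact h3
  have hfu : ∀ u ∈ Set.Icc lo hi, |f u| ≤ δ₁ * Real.pi := by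
    intro u hu
    have hflo : f lo = 0 := by simp [hf', hpev]
    rcases eq_or_lt_of_le hu.1 with h | h
    · rw [← h, hflo, abs_zero]; positivity
    · have := bd u hu lo ⟨le_rfl, h1⟩ h
      rw [hflo, sub_zero] at this
      exact this.trans (mul_le_mul_of_nonneg_left (by linarith [hu.2]) hδ₁0.le)
  have hδa : δ₁ ≤ δ := min_le_left _ _
  have hδb : δ₁ * Real.pi ≤ 1 := by
    have : δ₁ ≤ 1 / Real.pi := (min_le_right _ _).trans (min_le_left _ _)
    rwa [le_div_iff₀ Real.pi_pos] at this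
  have hδc : δ₁ * Real.pi * (2 * C + 1) ≤ δ := by
    have : δ₁ ≤ δ / (Real.pi * (2 * C + 1)) := (min_le_right _ _).trans (min_le_right _ _)
    rw [le_div_iff₀ (by positivity)] at this
    linarith
  refine ⟨D, c, fun u hu v hv => ⟨?_, ?_⟩⟩
  · rcases lt_trichotomy v u with h | h | h
    · have h3 := bd u hu v hv h
      have h4 : (-pdd D c u v - ctD u v) * (u - v) = -(f u - f v) := by
        have := ctD_mul (hsin u hu) (hsin v hv)
        simp only [hf']
        linarith [pdd_mul D c u v]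
      have h5 : |(-pdd D c u v - ctD u v) * (u - v)| ≤ δ * (u - v) := by
        rw [h4, abs_neg]
        exact h3.trans (mul_le_mul_of_nonneg_right hδa (sub_nonneg.mpr h.le))
      rw [abs_mul, abs_of_pos (sub_pos.mpr h)] at h5
      exact le_of_mul_le_mul_right h5 (sub_pos.mpr h)
    · subst h
      rw [hder, ctD, sub_self, Real.sinc_zero,
        show -q.eval v - 1 / (Real.sin v * Real.sin v)
          = -(q.eval v - -(1 / Real.sin v ^ 2)) by ring, abs_neg]
      exact (hq v hv).le.trans hδa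
    · have h3 := bd v hv u hu h
      have h4 : (-pdd D c u v - ctD u v) * (v - u) = f u - f v := by
        have := ctD_mul (hsin u hu) (hsin v hv)
        simp only [hf']
        linarith [pdd_mul D c u v]
      have h5 : |(-pdd D c u v - ctD u v) * (v - u)| ≤ δ * (v - u) := by
        rw [h4, abs_sub_comm]
        exact h3.trans (mul_le_mul_of_nonneg_right hδa (sub_nonneg.mpr h.le))
      rw [abs_mul, abs_of_pos (sub_pos.mpr h)] at h5
      exact le_of_mul_le_mul_right h5 (sub_pos.mpr h)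
  · have e : pev D c u * pev D c v - ct u * ct v = f u * ct v + (ct u + f u) * f v := by
      simp only [hf']; ring
    rw [e]
    have h3 := hfu u hu
    have h4 := hfu v hv
    have h5 : |ct u| ≤ C := hC u hu
    have h6 : |ct v| ≤ C := hC v hv
    calc |f u * ct v + (ct u + f u) * f v|
        ≤ |f u * ct v| + |(ct u + f u) * f v| := abs_add_le _ _
      _ ≤ δ₁ * Real.pi * C + (C + 1) * (δ₁ * Real.pi) := by
          rw [abs_mul, abs_mul]
          refine add_le_add (mul_le_mul h3 h6 (abs_nonneg _) (by positivity))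
            (mul_le_mul ?_ h4 (abs_nonneg _) (by positivity))
          exact (abs_add_le _ _).trans (add_le_add h5 (h3.trans hδb))
      _ = δ₁ * Real.pi * (2 * C + 1) := by ring
      _ ≤ δ := hδc

variable {ι γ : Type} [Fintype ι] [DecidableEq ι] [Fintype γ]

/-- `Re tr Z³`. -/
def cubeTr (Z : Matrix ι ι ℂ) : ℝ := ((Z * Z * Z).trace).re

omit [DecidableEq ι] in
theorem cubeTr_eq (Z : Matrix ι ι ℂ) : cubeTr Z = ∑ i, ∑ j, ∑ k, tri Z i j k := by
  unfold cubeTr tri
  simp only [Matrix.trace, Matrix.diag, Matrix.mul_apply, Finset.sum_mul, Complex.re_sum]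
  exact Finset.sum_congr rfl fun i _ => Finset.sum_comm

omit [DecidableEq ι] in
theorem gram_entry_le (V : Matrix ι γ ℂ) (i j : ι) : ‖(V * Vᴴ) i j‖ ≤ frobSq V := by
  rw [Matrix.mul_apply]
  refine (norm_sum_le _ _).trans ?_
  calc ∑ s, ‖V i s * Vᴴ s j‖ ≤ ∑ s, (Complex.normSq (V i s) + Complex.normSq (V j s)) / 2 := by
        refine Finset.sum_le_sum fun s _ => ?_
        rw [conjTranspose_apply, norm_mul, norm_star, Complex.normSq_eq_norm_sq,
          Complex.normSq_eq_norm_sq]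
        nlinarith [sq_nonneg (‖V i s‖ - ‖V j s‖)]
    _ ≤ frobSq V := by
        have h : ∀ x : ι, ∑ s, Complex.normSq (V x s) ≤ frobSq V := fun x =>
          Finset.single_le_sum (f := fun x => ∑ s, Complex.normSq (V x s))
            (fun y _ => Finset.sum_nonneg fun s _ => Complex.normSq_nonneg _) (Finset.mem_univ x)
        rw [← Finset.sum_div, Finset.sum_add_distrib]
        linarith [h i, h j]

omit [Fintype ι] [DecidableEq ι] in
theorem frobSq_nonneg {α β : Type} [Fintype α] [Fintype β] (M : Matrix α β ℂ) : 0 ≤ frobSq M :=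
  Finset.sum_nonneg fun _ _ => Finset.sum_nonneg fun _ _ => Complex.normSq_nonneg _

omit [DecidableEq ι] in
theorem tri_abs_le (V : Matrix ι γ ℂ) (i j k : ι) : |tri (V * Vᴴ) i j k| ≤ frobSq V ^ 3 := by
  refine (Complex.abs_re_le_norm _).trans ?_
  rw [norm_mul, norm_mul, show frobSq V ^ 3 = frobSq V * frobSq V * frobSq V by ring]
  have h0 := frobSq_nonneg V
  exact mul_le_mul (mul_le_mul (gram_entry_le V i j) (gram_entry_le V j k) (norm_nonneg _) h0)
    (gram_entry_le V k i) (norm_nonneg _) (by positivity)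

theorem gram_conj (U : Matrix ι ι ℂ) (V W : Matrix ι γ ℂ) :
    conjU U (V * Wᴴ) = (U * V) * (U * W)ᴴ := by
  rw [conjU, conjTranspose_mul, star_eq_conjTranspose]
  simp only [Matrix.mul_assoc]

theorem frob_unitary {U : Matrix ι ι ℂ} (hU : star U * U = 1) (V : Matrix ι γ ℂ) :
    frobSq (U * V) = frobSq V := by
  rw [frobSq_eq_trace, frobSq_eq_trace, ← gram_conj, conjU_trace hU]

theorem diagonalize {A : Matrix ι ι ℂ} (hA : A.IsHermitian) :
    ∃ (U : Matrix ι ι ℂ) (a : ι → ℝ), star U * U = 1 ∧ A = conjU U (dg a) := by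
  refine ⟨hA.eigenvectorUnitary, hA.eigenvalues, ?_, ?_⟩
  · exact Unitary.star_mul_self_of_mem hA.eigenvectorUnitary.2
  · conv_lhs => rw [hA.spectral_theorem, Unitary.conjStarAlgAut_apply]
    rfl

/-- The regularized Gram matrix. -/
def regA (ε : ℝ) (M : Matrix ι ι ℂ) : Matrix ι ι ℂ :=
  ((Real.pi / 2 * ε : ℝ) : ℂ) • (1 : Matrix ι ι ℂ) + ((Real.pi / 2 * (1 - 2 * ε) : ℝ) : ℂ) • M

theorem regA_spec {ε : ℝ} (h0 : 0 < ε) (h1 : ε < 1 / 2) {M : Matrix ι ι ℂ} (hM : M.IsHermitian)
    (hM0 : ∀ w, 0 ≤ (qf M w).re) (hM1 : ∀ w, (qf M w).re ≤ ∑ i, Complex.normSq (w i)) :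
    ∃ (U : Matrix ι ι ℂ) (a : ι → ℝ), star U * U = 1 ∧ regA ε M = conjU U (dg a) ∧
      ∀ i, Real.pi / 2 * ε ≤ a i ∧ a i ≤ Real.pi / 2 * (1 - ε) := by
  have hA : (regA ε M).IsHermitian := by
    rw [IsHermitian, regA, conjTranspose_add, conjTranspose_smul, conjTranspose_smul,
      conjTranspose_one, hM.eq]
    simp
  obtain ⟨U, a, hU, he⟩ := diagonalize hA
  refine ⟨U, a, hU, he, fun i => ?_⟩
  have h2 : star U * regA ε M * U = dg a := by
    rw [he, conjU]
    simp only [← mul_assoc, hU, one_mul]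
    rw [mul_assoc, hU, mul_one]
  have h3 : (a i : ℂ) = ((Real.pi / 2 * ε : ℝ) : ℂ)
      + ((Real.pi / 2 * (1 - 2 * ε) : ℝ) : ℂ) * qf M (fun j => U j i) := by
    have := congrFun (congrFun h2 i) i
    simp only [regA, mul_add, add_mul, mul_smul_comm, smul_mul_assoc, mul_one, hU,
      Matrix.add_apply, Matrix.smul_apply, one_apply_eq, smul_eq_mul, dg, diagonal_apply_eq,
      mul_one] at this
    rw [← this]
    congr 2
    simp only [qf, Matrix.mul_apply, Finset.sum_mul, star_apply]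
    exact Finset.sum_comm
  have h4 : a i = Real.pi / 2 * ε + Real.pi / 2 * (1 - 2 * ε) * (qf M (fun j => U j i)).re := by
    have := congrArg Complex.re h3
    simpa [Complex.add_re, Complex.re_ofReal_mul] using this
  have h5 : ∑ j, Complex.normSq (U j i) = 1 := by
    have := congrArg (fun X : Matrix ι ι ℂ => (X i i).re) hU
    simpa [Matrix.mul_apply, star_apply, Complex.re_sum, Complex.normSq_apply] using this
  have h6 := hM0 fun j => U j i
  have h7 := hM1 fun j => U j i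
  rw [h5] at h7
  have hp : 0 ≤ Real.pi / 2 * (1 - 2 * ε) := by
    have := Real.pi_pos
    nlinarith
  constructor
  · rw [h4]; linarith [mul_nonneg hp h6]
  · rw [h4]
    nlinarith [mul_le_mul_of_nonneg_left h7 hp]

/-- The differential inequality at one point. -/
theorem pointwise_ineq {lo hi δ : ℝ} (D : ℕ) (c : ℕ → ℝ)
    (hc : ∀ u ∈ Set.Icc lo hi, ∀ v ∈ Set.Icc lo hi,
      |-pdd D c u v - ctD u v| ≤ δ ∧ |pev D c u * pev D c v - ct u * ct v| ≤ δ)
    {U : Matrix ι ι ℂ} (hU : star U * U = 1) {a : ι → ℝ}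
    (ha : ∀ i, 0 < a i ∧ a i < Real.pi / 2) (hr : ∀ i j, a i + a j ∈ Set.Icc lo hi)
    (κ : ℝ) (Y Y' : Matrix ι γ ℂ) :
    κ / 2 * qFunD D c (conjU U (dg a)) ((κ : ℂ) • (Y * Yᴴ)) (Y * Yᴴ) (Y' * Yᴴ + Y * Y'ᴴ)
      + κ ^ 2 * (cubeTr (Y * Yᴴ) - 2 * δ * (Fintype.card ι : ℝ) ^ 3 * frobSq Y ^ 3)
      ≤ frobSq Y' := by
  have hU' : U * star U = 1 := mul_eq_one_comm.mp hU
  set V := star U * Y with hV
  set V' := star U * Y' with hV'
  have hY : Y = U * V := by rw [hV, ← Matrix.mul_assoc, hU', Matrix.one_mul]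
  have hY' : Y' = U * V' := by rw [hV', ← Matrix.mul_assoc, hU', Matrix.one_mul]
  have hS : frobSq Y = frobSq V := by rw [hY, frob_unitary hU]
  have hS' : frobSq Y' = frobSq V' := by rw [hY', frob_unitary hU]
  have hZ : Y * Yᴴ = conjU U (V * Vᴴ) := by rw [gram_conj, ← hY]
  have hZ' : Y' * Yᴴ + Y * Y'ᴴ = conjU U (V' * Vᴴ + V * V'ᴴ) := by
    rw [← conjU_add, gram_conj, gram_conj, ← hY, ← hY']
  have hκ : (κ : ℂ) • (Y * Yᴴ) = conjU U ((κ : ℂ) • (V * Vᴴ)) := by
    rw [hZ, conjU, conjU, mul_smul_comm, smul_mul_assoc]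
  have hcube : cubeTr (Y * Yᴴ) = cubeTr (V * Vᴴ) := by
    rw [cubeTr, cubeTr, hZ, conjU_mul hU, conjU_mul hU, conjU_trace hU]
  rw [hκ, hcube, hZ', hZ, qFunD_conj hU, hS, hS']
  refine le_trans ?_ (square_step D c a κ V V')
  refine add_le_add le_rfl (mul_le_mul_of_nonneg_left ?_ (sq_nonneg κ))
  have hP : (V * Vᴴ).PosSemidef := posSemidef_self_mul_conjTranspose V
  have h1 := core_inequality hP ha
  rw [cubeTr_eq]
  have hb : ∀ i j k, |(-pdd D c (a i + a k) (a j + a k) - pev D c (a i + a j) * pev D c (a i + a k))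
      - (ctD (a i + a k) (a j + a k) - ct (a i + a j) * ct (a i + a k))| ≤ 2 * δ := by
    intro i j k
    have h3 := (hc _ (hr i k) _ (hr j k)).1
    have h4 := (hc _ (hr i j) _ (hr i k)).2
    rw [abs_le] at h3 h4 ⊢
    constructor <;> linarith [h3.1, h3.2, h4.1, h4.2]
  have h2 : |(∑ i, ∑ j, ∑ k, tri (V * Vᴴ) i j k *
        (-pdd D c (a i + a k) (a j + a k) - pev D c (a i + a j) * pev D c (a i + a k)))
      - ∑ i, ∑ j, ∑ k, tri (V * Vᴴ) i j k *
        (ctD (a i + a k) (a j + a k) - ct (a i + a j) * ct (a i + a k))|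
      ≤ 2 * δ * (Fintype.card ι : ℝ) ^ 3 * frobSq V ^ 3 := by
    simp only [← Finset.sum_sub_distrib, ← mul_sub]
    refine (Finset.abs_sum_le_sum_abs _ _).trans ?_
    refine (Finset.sum_le_sum fun i _ => (Finset.abs_sum_le_sum_abs _ _).trans
      (Finset.sum_le_sum fun j _ => (Finset.abs_sum_le_sum_abs _ _).trans
        (Finset.sum_le_sum (g := fun _ => frobSq V ^ 3 * (2 * δ)) fun k _ => ?_))).trans ?_
    · rw [abs_mul]
      exact mul_le_mul (tri_abs_le V i j k) (hb i j k) (abs_nonneg _)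
        (pow_nonneg (frobSq_nonneg V) 3)
    · simp only [Finset.sum_const, Finset.card_univ, nsmul_eq_mul]
      exact le_of_eq (by ring)
  have := (abs_le.mp h2).1
  linarith

theorem qFun_bound {lo hi C : ℝ} (D : ℕ) (c : ℕ → ℝ) (hC : ∀ u ∈ Set.Icc lo hi, |pev D c u| ≤ C)
    {U : Matrix ι ι ℂ} (hU : star U * U = 1) {a : ι → ℝ} (hr : ∀ i j, a i + a j ∈ Set.Icc lo hi)
    (Y : Matrix ι γ ℂ) :
    |qFun D c (conjU U (dg a)) (Y * Yᴴ)| ≤ (Fintype.card ι : ℝ) ^ 2 * C * frobSq Y ^ 2 := by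
  set V := star U * Y with hV
  have hY : Y = U * V := by rw [hV, ← Matrix.mul_assoc, mul_eq_one_comm.mp hU, Matrix.one_mul]
  rw [hY, frob_unitary hU, ← gram_conj, qFun_conj hU]
  set P := V * Vᴴ with hP
  have e : qFun D c (dg a) P = ∑ i, ∑ j, pev D c (a i + a j) * (P i j * P j i).re := by
    simp only [qFun, pev, Matrix.trace, Matrix.diag, Matrix.mul_apply, lPow_diag, Complex.re_sum,
      Finset.mul_sum, Finset.sum_mul]
    rw [Finset.sum_comm]
    refine Finset.sum_congr rfl fun i _ => ?_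
    rw [Finset.sum_comm]
    refine Finset.sum_congr rfl fun j _ => Finset.sum_congr rfl fun l _ => ?_
    rw [← Complex.ofReal_pow, mul_assoc, mul_assoc, Complex.re_ofReal_mul]
  rw [e]
  refine (Finset.abs_sum_le_sum_abs _ _).trans ((Finset.sum_le_sum fun i _ =>
    (Finset.abs_sum_le_sum_abs _ _).trans
      (Finset.sum_le_sum (g := fun _ => C * frobSq V ^ 2) fun j _ => ?_)).trans ?_)
  · rw [abs_mul]
    have hC0 := (abs_nonneg _).trans (hC _ (hr i j))
    refine mul_le_mul (hC _ (hr i j)) ((Complex.abs_re_le_norm _).trans ?_) (abs_nonneg _) hC0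
    rw [norm_mul, sq]
    exact mul_le_mul (gram_entry_le V i j) (gram_entry_le V j i) (norm_nonneg _) (frobSq_nonneg V)
  · simp only [Finset.sum_const, Finset.card_univ, nsmul_eq_mul]
    exact le_of_eq (by ring)

end

end Vale.Agent.P371
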