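import Vale.Agent.P371.OrthIneq
import Vale.Agent.P371.Defs
import Mathlib.Analysis.Matrix.PosDef
import Mathlib.Analysis.Convex.SpecificFunctions.Basic
import Mathlib.Analysis.Convex.Jensen

/-! # The sharp upper bound -/

namespace Vale.Agent.P371.LT

open MeasureTheory Filter Topology Matrix
open scoped ComplexOrder

noncomputable section

/-- The constant `4/(3√3 π)`. -/
def ltConst : ℝ := 4 / (3 * Real.sqrt 3 * Real.pi)

theorem young {l r : ℝ} (hl : 0 ≤ l) (hr : 0 ≤ r) :
    l * r ≤ ltConst * l ^ ((3 : ℝ) / 2) + Real.pi ^ 2 / 4 * r ^ 3 := by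
  set s := Real.sqrt l with hs
  have hls : l = s ^ 2 := (Real.sq_sqrt hl).symm
  have hs0 : 0 ≤ s := Real.sqrt_nonneg l
  have hpow : l ^ ((3 : ℝ) / 2) = s ^ 3 := by
    rw [hs, Real.sqrt_eq_rpow, ← Real.rpow_mul_natCast hl]; norm_num
  rw [hpow, hls, ltConst]
  have h3 : 0 < Real.sqrt 3 := by positivity
  have h3' : Real.sqrt 3 * Real.sqrt 3 = 3 := Real.mul_self_sqrt (by norm_num)
  set t := Real.sqrt 3 * Real.pi / 2 * r with ht
  have ht0 : 0 ≤ t := by positivity
  have key : 3 * s ^ 2 * t ≤ 2 * s ^ 3 + t ^ 3 := by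
    nlinarith [mul_nonneg (sq_nonneg (s - t)) (by linarith : (0 : ℝ) ≤ 2 * s + t)]
  have e1 : s ^ 2 * r = (2 / (3 * Real.sqrt 3 * Real.pi)) * (3 * s ^ 2 * t) := by
    rw [ht]; field_simp
  have e2 : 4 / (3 * Real.sqrt 3 * Real.pi) * s ^ 3 + Real.pi ^ 2 / 4 * r ^ 3
      = (2 / (3 * Real.sqrt 3 * Real.pi)) * (2 * s ^ 3 + t ^ 3) := by
    rw [ht]
    field_simp
    linear_combination ((-4 : ℝ) * Real.sqrt 3 * Real.pi ^ 3 * r ^ 3) * h3'
  rw [e1, e2]
  exact mul_le_mul_of_nonneg_left key (by positivity)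

theorem cube_diag_le {m : ℕ} {R : Matrix (Fin m) (Fin m) ℂ} (hR : R.PosSemidef) :
    ∑ a, ((R a a).re) ^ 3 ≤ ((R * R * R).trace).re := by
  obtain ⟨U, d, hU, he⟩ := Vale.Agent.P371.diagonalize hR.isHermitian
  have hU' : U * star U = 1 := mul_eq_one_comm.mp hU
  have hd : ∀ k, 0 ≤ d k := by
    intro k
    have h2 := Vale.Agent.P371.qf_nonneg hR fun j => U j k
    have h3 : star U * R * U = dg d := by
      rw [he, conjU]
      simp only [← mul_assoc, hU, one_mul]
      rw [mul_assoc, hU, mul_one]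
    have h4 := congrFun (congrFun h3 k) k
    simp only [Matrix.mul_apply, Finset.sum_mul, star_apply, dg, diagonal_apply_eq] at h4
    rw [Finset.sum_comm] at h4
    rw [qf, h4, Complex.ofReal_re] at h2
    exact h2
  have hent : ∀ a, (R a a).re = ∑ k, Complex.normSq (U a k) * d k := by
    intro a
    rw [he, conjU]
    simp only [dg, Matrix.mul_apply (M := U * _), mul_diagonal, star_apply, Complex.re_sum]
    refine Finset.sum_congr rfl fun k _ => ?_
    rw [mul_right_comm, Complex.star_def, Complex.mul_conj, ← Complex.ofReal_mul, Complex.ofReal_re]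
  have hrow : ∀ a, ∑ k, Complex.normSq (U a k) = 1 := by
    intro a
    have := congrArg (fun M : Matrix (Fin m) (Fin m) ℂ => (M a a).re) hU'
    simpa [Matrix.mul_apply, star_apply, Complex.re_sum, Complex.normSq_apply] using this
  have hcol : ∀ k, ∑ a, Complex.normSq (U a k) = 1 := by
    intro k
    have := congrArg (fun M : Matrix (Fin m) (Fin m) ℂ => (M k k).re) hU
    simpa [Matrix.mul_apply, star_apply, Complex.re_sum, Complex.normSq_apply] using this
  have htr : ((R * R * R).trace).re = ∑ k, d k ^ 3 := by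
    rw [he, conjU_mul hU, conjU_mul hU, conjU_trace hU]
    simp only [dg, diagonal_mul_diagonal, trace_diagonal, Complex.re_sum, ← Complex.ofReal_mul,
      Complex.ofReal_re]
    exact Finset.sum_congr rfl fun k _ => by ring
  rw [htr]
  calc ∑ a, (R a a).re ^ 3 ≤ ∑ a, ∑ k, Complex.normSq (U a k) * d k ^ 3 := by
        refine Finset.sum_le_sum fun a _ => ?_
        rw [hent a]
        have := (convexOn_pow (𝕜 := ℝ) 3).map_sum_le (t := Finset.univ)
          (w := fun k => Complex.normSq (U a k)) (p := d) (fun k _ => Complex.normSq_nonneg _)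
          (hrow a) (fun k _ => Set.mem_Ici.mpr (hd k))
        simpa [smul_eq_mul] using this
    _ = ∑ k, d k ^ 3 := by
        rw [Finset.sum_comm]
        refine Finset.sum_congr rfl fun k _ => ?_
        rw [← Finset.sum_mul, hcol, one_mul]

/-- The potential energy density of a family. -/
def potDens {m : ℕ} {ι : Type} [Fintype ι] (W : Matrix (Fin m) (Fin m) ℂ)
    (Y : Matrix ι (Fin m) ℂ) : ℝ :=
  (∑ n, ∑ a, ∑ b, star (Y n a) * W a b * Y n b).re

theorem potDens_spec {m : ℕ} {ι : Type} [Fintype ι] [DecidableEq ι]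
    {W : Matrix (Fin m) (Fin m) ℂ} (hW : W.PosSemidef) (Y : Matrix ι (Fin m) ℂ) :
    ∃ l r : Fin m → ℝ, l = hW.isHermitian.eigenvalues ∧ (∀ a, 0 ≤ l a ∧ 0 ≤ r a) ∧
      (∀ p : ℝ, trPow p W = ∑ a, l a ^ p) ∧ potDens W Y = ∑ a, l a * r a ∧ frobSq Y = ∑ a, r a ∧
      ∑ a, r a ^ 3 ≤ cubeTr (Y * Yᴴ) := by
  have hH := hW.isHermitian
  set Λ := hH.eigenvalues with hΛ
  set U : Matrix (Fin m) (Fin m) ℂ := (hH.eigenvectorUnitary : Matrix (Fin m) (Fin m) ℂ) with hUdef
  have hU : star U * U = 1 := Unitary.star_mul_self_of_mem hH.eigenvectorUnitary.2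
  have hW' : W = U * dg Λ * star U := by
    conv_lhs => rw [hH.spectral_theorem, Unitary.conjStarAlgAut_apply]
    rfl
  set R := star U * (Yᵀ * Yᵀᴴ) * U with hR
  have hRp : R.PosSemidef := by
    have := (Matrix.posSemidef_self_mul_conjTranspose Yᵀ).conjTranspose_mul_mul_same U
    rwa [← star_eq_conjTranspose] at this
  have hRd : ∀ a, 0 ≤ (R a a).re := fun a => (Complex.le_def.mp hRp.diag_nonneg).1
  have e1 : potDens W Y = ∑ a, Λ a * (R a a).re := by
    have h1 : (∑ n, ∑ a, ∑ b, star (Y n a) * W a b * Y n b) = (W * (Yᵀ * Yᵀᴴ)).trace := by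
      simp only [Matrix.trace, Matrix.diag, Matrix.mul_apply, conjTranspose_apply, transpose_apply,
        Finset.mul_sum]
      rw [Finset.sum_comm]
      refine Finset.sum_congr rfl fun a _ => ?_
      rw [Finset.sum_comm]
      refine Finset.sum_congr rfl fun b _ => Finset.sum_congr rfl fun n _ => ?_
      ring
    rw [potDens, h1, hW', mul_assoc, mul_assoc, Matrix.trace_mul_comm, mul_assoc, ← hR]
    simp only [Matrix.trace, Matrix.diag, dg, diagonal_mul, Complex.re_sum, Complex.re_ofReal_mul]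
  have e3 : ((R * R * R).trace).re = cubeTr (Y * Yᴴ) := by
    have hU' : U * star U = 1 := mul_eq_one_comm.mp hU
    set G := Yᵀ * Yᵀᴴ with hG
    have : (R * R * R).trace = (G * G * G).trace := by
      rw [hR, show star U * G * U * (star U * G * U) * (star U * G * U)
        = star U * (G * (U * star U) * G * (U * star U) * G) * U by simp only [mul_assoc], hU']
      simp only [mul_one]
      rw [Matrix.trace_mul_comm, ← mul_assoc, hU', one_mul]
    rw [this, cubeTr, hG]
    have hG' : Yᵀ * Yᵀᴴ = (Yᴴ * Y)ᵀ := by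
      ext i j
      simp [Matrix.mul_apply, mul_comm]
    rw [hG', ← transpose_mul, ← transpose_mul, trace_transpose]
    have : Yᴴ * Y * (Yᴴ * Y * (Yᴴ * Y)) = Yᴴ * (Y * Yᴴ * (Y * Yᴴ) * Y) := by
      simp only [Matrix.mul_assoc]
    rw [this, Matrix.trace_mul_comm Yᴴ]
    simp only [Matrix.mul_assoc]
  refine ⟨Λ, fun a => (R a a).re, rfl, fun a => ⟨hW.eigenvalues_nonneg a, hRd a⟩,
    fun p => by rw [trPow, dif_pos hH], e1, ?_, e3 ▸ cube_diag_le hRp⟩
  have hU' : U * star U = 1 := mul_eq_one_comm.mp hU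
  show _ = ∑ a, (R.diag a).re
  rw [← Complex.re_sum, show ∑ a, R.diag a = R.trace from rfl, hR, Matrix.trace_mul_comm,
    ← mul_assoc, hU', one_mul]
  simp only [frobSq, Matrix.trace, Matrix.diag, Matrix.mul_apply, conjTranspose_apply,
    transpose_apply, Complex.re_sum]
  rw [Finset.sum_comm]
  refine Finset.sum_congr rfl fun a _ => Finset.sum_congr rfl fun n _ => ?_
  rw [Complex.star_def, Complex.mul_conj, Complex.ofReal_re]

theorem potDens_le {m : ℕ} {ι : Type} [Fintype ι] [DecidableEq ι]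
    {W : Matrix (Fin m) (Fin m) ℂ} (hW : W.PosSemidef) (Y : Matrix ι (Fin m) ℂ) :
    0 ≤ potDens W Y ∧
    potDens W Y ≤ ltConst * trPow (3 / 2) W + Real.pi ^ 2 / 4 * cubeTr (Y * Yᴴ) := by
  obtain ⟨l, r, -, h0, hp, e1, -, e3⟩ := potDens_spec hW Y
  rw [e1, hp]
  refine ⟨Finset.sum_nonneg fun a _ => mul_nonneg (h0 a).1 (h0 a).2, ?_⟩
  refine le_trans ?_ (add_le_add le_rfl (mul_le_mul_of_nonneg_left e3 (by positivity)))
  rw [Finset.mul_sum, Finset.mul_sum, ← Finset.sum_add_distrib]
  exact Finset.sum_le_sum fun a _ => young (h0 a).1 (h0 a).2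

theorem orthFam_of {m N : ℕ} {ψ ψ' : Fin N → ℝ → Fin m → ℂ} (h1 : ∀ n, MemH1 (ψ n) (ψ' n))
    (h2 : ∀ n k, inner2 (ψ n) (ψ k) = if n = k then 1 else 0) :
    OrthFam (fun n a x => ψ n x a) (fun n a x => ψ' n x a) := by
  refine ⟨fun n a => h1 n a, fun n k => ?_⟩
  have := h2 k n
  rw [inner2] at this
  rw [show (if n = k then (1 : ℂ) else 0) = if k = n then 1 else 0 from by simp only [eq_comm], ← this]
  refine integral_congr_ae (Eventually.of_forall fun x => ?_)
  simp only [dens_eq]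
  exact Finset.sum_congr rfl fun a _ => mul_comm _ _

/-- The sharp bound on the sum of the negative eigenvalues. -/
theorem lt_upper {m N : ℕ} {W : ℝ → Matrix (Fin m) (Fin m) ℂ} (hW : IsPotential W)
    {E : Fin N → ℝ} {ψ ψ' : Fin N → ℝ → Fin m → ℂ} (h : IsBoundStates W E ψ ψ') :
    ∑ n, |E n| ≤ ltConst * ∫ x, trPow (3 / 2) (W x) := by
  obtain ⟨h1, h2, h3⟩ := h
  have hF := orthFam_of h1 h2
  set Φ : Fin N → Fin m → ℝ → ℂ := fun n a x => ψ n x a with hΦ
  set Φ' : Fin N → Fin m → ℝ → ℂ := fun n a x => ψ' n x a with hΦ'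
  set U0 := fun x => ltConst * trPow (3 / 2) (W x)
    + Real.pi ^ 2 / 4 * cubeTr (ymat Φ x * (ymat Φ x)ᴴ) with hU0
  have hU0i : Integrable U0 := (hW.2.2.const_mul _).add (hF.cube_integrable.2.const_mul _)
  set term : Fin N → ℝ → ℂ := fun n x => ∑ a, ∑ b, star (ψ n x a) * W x a b * ψ n x b with hterm
  have hre : ∀ n x, 0 ≤ (term n x).re ∧ (term n x).im = 0 := by
    intro n x
    have h := (hW.2.1 x).dotProduct_mulVec_nonneg (fun a => ψ n x a)
    rw [← qf_eq] at h
    exact ⟨(Complex.le_def.mp h).1, (Complex.le_def.mp h).2.symm⟩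
  have hdom : ∀ x, potDens (W x) (ymat Φ x) ≤ U0 x :=
    fun x => (potDens_le (hW.2.1 x) (ymat Φ x)).2
  have hpd : ∀ x, potDens (W x) (ymat Φ x) = ∑ n, (term n x).re := fun x => by
    rw [potDens, Complex.re_sum]; rfl
  have hmeas : ∀ n, AEStronglyMeasurable (term n) volume := by
    intro n
    refine Measurable.aestronglyMeasurable ?_
    refine Finset.measurable_fun_sum _ fun a _ => Finset.measurable_fun_sum _ fun b _ => ?_
    exact ((continuous_star.measurable.comp ((hF.h1 n a).continuous.measurable)).mul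
      (hW.1 a b)).mul ((hF.h1 n b).continuous.measurable)
  have hint : ∀ n, Integrable (term n) := by
    intro n
    refine Integrable.mono' hU0i (hmeas n) (Eventually.of_forall fun x => ?_)
    have e : term n x = ((term n x).re : ℂ) := Complex.ext rfl (by simp [(hre n x).2])
    rw [e, Complex.norm_real, Real.norm_eq_abs, abs_of_nonneg (hre n x).1]
    refine le_trans ?_ (hdom x)
    rw [hpd]
    exact Finset.single_le_sum (fun k _ => (hre k x).1) (Finset.mem_univ n)
  have key : ∀ n, |E n| = (∫ x, (term n x).re) - ∫ x, ∑ a, Complex.normSq (ψ' n x a) := by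
    intro n
    have hq := (h3 n).2 (ψ n) (ψ' n) (h1 n)
    rw [h2 n n, if_pos rfl, mul_one, form] at hq
    have hk : inner2 (ψ' n) (ψ' n) = ((∫ x, ∑ a, Complex.normSq (ψ' n x a) : ℝ) : ℂ) := by
      rw [inner2, ← integral_complex_ofReal]
      refine integral_congr_ae (Eventually.of_forall fun x => ?_)
      push_cast
      exact Finset.sum_congr rfl fun a _ => (Complex.normSq_eq_conj_mul_self).symm
    rw [hk] at hq
    have := congrArg Complex.re hq
    rw [Complex.sub_re, Complex.ofReal_re, Complex.ofReal_re] at this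
    have hi : (∫ x, term n x).re = ∫ x, (term n x).re :=
      (Complex.reCLM.integral_comp_comm (hint n)).symm
    rw [abs_of_neg (h3 n).1]
    linarith
  have hs : ∑ n, ∫ x, (term n x).re ≤ ∫ x, U0 x := by
    have hre' : ∀ n, Integrable (fun x => (term n x).re) := fun n =>
      Complex.reCLM.integrable_comp (hint n)
    rw [← integral_finsetSum _ fun n _ => hre' n]
    refine integral_mono (integrable_finsetSum _ fun n _ => hre' n) hU0i fun x => ?_
    show ∑ n, (term n x).re ≤ U0 x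
    rw [← hpd]
    exact hdom x
  have hk : ∑ n, ∫ x, ∑ a, Complex.normSq (ψ' n x a) = ∫ x, frobSq (ymat Φ' x) := by
    rw [← integral_finsetSum _ fun n _ =>
      integrable_finsetSum _ fun a _ => (hF.h1 n a).normSq_integrable.2]
    rfl
  have hU : ∫ x, U0 x = ltConst * (∫ x, trPow (3 / 2) (W x))
      + Real.pi ^ 2 / 4 * ∫ x, cubeTr (ymat Φ x * (ymat Φ x)ᴴ) := by
    rw [hU0, integral_add (hW.2.2.const_mul _) (hF.cube_integrable.2.const_mul _),
      integral_const_mul, integral_const_mul]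
  simp only [key, Finset.sum_sub_distrib]
  rw [hk]
  linarith [hF.sharp]

end

end Vale.Agent.P371.LT
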